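import Vale.Agent.P022.Iface

namespace Vale.Agent.P022.H436

open NumberField UpperHalfPlane CongruenceSubgroup Matrix.SpecialLinearGroup
open scoped MatrixGroups ModularForm

theorem QBdd.rescale {v : AbsoluteValue ℂ ℝ} {C : ℝ} {f : ℍ → ℂ} (hf : QBdd v C f) :
    ∃ (h : ℕ), 0 < h ∧ ∀ k : ℕ, 0 < k → ∃ c : ℕ → ℂ, (∀ n, v (c n) ≤ C) ∧
      ∀ τ : ℍ, HasSum (fun n : ℕ => c n *
        Complex.exp (2 * Real.pi * Complex.I * n * τ / ((h * k : ℕ) : ℂ))) (f τ) := by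
  obtain ⟨h, c, hh, hc, hs⟩ := hf
  refine ⟨h, hh, fun k hk => ⟨fun n => if k ∣ n then c (n / k) else 0, ?_, ?_⟩⟩
  · intro n
    dsimp only
    split_ifs
    · exact hc _
    · rw [map_zero]; exact (v.nonneg _).trans (hc 0)
  · intro τ
    have hinj : Function.Injective (fun n : ℕ => k * n) := fun a b hab =>
      Nat.eq_of_mul_eq_mul_left hk hab
    rw [← hinj.hasSum_iff]
    · convert! hs τ using 1
      funext n
      simp only [Function.comp_apply]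
      rw [if_pos (dvd_mul_right k n), Nat.mul_div_cancel_left _ hk]
      congr 2
      have hk' : (k : ℂ) ≠ 0 := by exact_mod_cast hk.ne'
      have hh' : (h : ℂ) ≠ 0 := by exact_mod_cast hh.ne'
      push_cast
      field_simp
    · intro x hx
      dsimp only
      rw [if_neg, zero_mul]
      rintro ⟨y, rfl⟩
      exact hx ⟨y, rfl⟩

theorem QBdd.add {v : AbsoluteValue ℂ ℝ} (hv : ∀ x y : ℂ, v (x + y) ≤ max (v x) (v y)) {C D : ℝ}
    {f g : ℍ → ℂ} (hf : QBdd v C f) (hg : QBdd v D g) : QBdd v (max C D) (f + g) := by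
  obtain ⟨h1, hh1, k1⟩ := QBdd.rescale hf
  obtain ⟨h2, hh2, k2⟩ := QBdd.rescale hg
  obtain ⟨c, hc, hcs⟩ := k1 h2 hh2
  obtain ⟨d, hd, hds⟩ := k2 h1 hh1
  refine ⟨h1 * h2, fun n => c n + d n, Nat.mul_pos hh1 hh2, fun n => ?_, fun τ => ?_⟩
  · exact (hv _ _).trans (max_le_max (hc n) (hd n))
  · have h3 := hds τ
    rw [mul_comm h2 h1] at h3
    convert! (hcs τ).add h3 using 1
    funext n
    ring

theorem QBdd.smul {v : AbsoluteValue ℂ ℝ} {C : ℝ} {f : ℍ → ℂ} (a : ℂ) (hf : QBdd v C f) :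
    QBdd v (v a * C) (a • f) := by
  obtain ⟨h, c, hh, hc, hs⟩ := hf
  refine ⟨h, fun n => a * c n, hh, fun n => ?_, fun τ => ?_⟩
  · rw [map_mul]; exact mul_le_mul_of_nonneg_left (hc n) (v.nonneg _)
  · convert! (hs τ).mul_left a using 1
    funext n
    ring

theorem VBdd.add {v : AbsoluteValue ℂ ℝ} (hv : ∀ x y : ℂ, v (x + y) ≤ max (v x) (v y)) {k : ℤ}
    {f g : ℍ → ℂ} (hf : VBdd v k f) (hg : VBdd v k g) : VBdd v k (f + g) := by
  intro γ
  obtain ⟨C, hC⟩ := hf γ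
  obtain ⟨D, hD⟩ := hg γ
  refine ⟨max C D, ?_⟩
  rw [ModularForm.SL_slash, SlashAction.add_slash, ← ModularForm.SL_slash, ← ModularForm.SL_slash]
  exact QBdd.add hv hC hD

theorem VBdd.smul {v : AbsoluteValue ℂ ℝ} {k : ℤ} {f : ℍ → ℂ} (a : ℂ) (hf : VBdd v k f) :
    VBdd v k (a • f) := by
  intro γ
  obtain ⟨C, hC⟩ := hf γ
  refine ⟨v a * C, ?_⟩
  rw [ModularForm.SL_smul_slash]
  exact QBdd.smul a hC

theorem VBdd.zero (v : AbsoluteValue ℂ ℝ) (k : ℤ) : VBdd v k (0 : ℍ → ℂ) := by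
  intro γ
  refine ⟨0, 1, fun _ => 0, one_pos, fun n => by simp, fun τ => ?_⟩
  rw [SlashAction.zero_slash]
  simp

/-- the three properties wanted of a weight one form -/
def Good (N : ℕ) (ρ : ℕ → ℂ) (a : ℕ → ℂ) : Prop :=
  ∃ g : MF N 1, HasQ g a ∧
    (∀ γ ∈ Gamma0 N, ∀ d : ℕ, γ 1 1 = d → (g : ℍ → ℂ) ∣[(1 : ℤ)] γ = ρ d • (g : ℍ → ℂ)) ∧
    ∀ v : AbsoluteValue ℂ ℝ, (∀ x y : ℂ, v (x + y) ≤ max (v x) (v y)) → VBdd v 1 g

theorem Good.zero (N : ℕ) (ρ : ℕ → ℂ) : Good N ρ (fun _ => 0) := by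
  refine ⟨0, ?_, ?_, ?_⟩
  · intro τ
    simp
  · intro γ _ d _
    rw [FunLike.coe_zero, SlashAction.zero_slash, smul_zero]
  · intro v _
    rw [FunLike.coe_zero]
    exact VBdd.zero v 1

theorem Good.add {N : ℕ} {ρ a b : ℕ → ℂ} (ha : Good N ρ a) (hb : Good N ρ b) :
    Good N ρ (fun n => a n + b n) := by
  obtain ⟨f, hf1, hf2, hf3⟩ := ha
  obtain ⟨g, hg1, hg2, hg3⟩ := hb
  refine ⟨f + g, ?_, ?_, ?_⟩
  · intro τ
    convert! (hf1 τ).add (hg1 τ) using 1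
    funext n
    ring
  · intro γ hγ d hd
    rw [FunLike.coe_add, ModularForm.SL_slash, SlashAction.add_slash, ← ModularForm.SL_slash,
      ← ModularForm.SL_slash, hf2 γ hγ d hd, hg2 γ hγ d hd, smul_add]
  · intro v hv
    rw [FunLike.coe_add]
    exact VBdd.add hv (hf3 v hv) (hg3 v hv)

theorem Good.smul {N : ℕ} {ρ a : ℕ → ℂ} (c : ℂ) (ha : Good N ρ a) :
    Good N ρ (fun n => c * a n) := by
  obtain ⟨f, hf1, hf2, hf3⟩ := ha
  refine ⟨c • f, ?_, ?_, ?_⟩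
  · intro τ
    convert! (hf1 τ).mul_left c using 1
    funext n
    ring
  · intro γ hγ d hd
    have : ((c • f : MF N 1) : ℍ → ℂ) = c • (f : ℍ → ℂ) := rfl
    rw [this, ModularForm.SL_smul_slash, hf2 γ hγ d hd, smul_comm]
  · intro v hv
    have : ((c • f : MF N 1) : ℍ → ℂ) = c • (f : ℍ → ℂ) := rfl
    rw [this]
    exact VBdd.smul c (hf3 v hv)

theorem Good.sum {N : ℕ} {ρ : ℕ → ℂ} {ι : Type*} (s : Finset ι) (a : ι → ℕ → ℂ)
    (h : ∀ i ∈ s, Good N ρ (a i)) : Good N ρ (fun n => ∑ i ∈ s, a i n) := by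
  classical
  induction s using Finset.induction_on with
  | empty => simpa using Good.zero N ρ
  | insert i s hi ih =>
    have h1 := h i (Finset.mem_insert_self i s)
    have h2 := ih fun j hj => h j (Finset.mem_insert_of_mem hj)
    have := Good.add h1 h2
    simpa [Finset.sum_insert hi] using this

end Vale.Agent.P022.H436
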