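import Vale.Agent.P022.H436.Unfold
import Vale.Agent.P022.H436.Good

namespace Vale.Agent.P022.H436

open NumberField Module Ideal

variable {K : Type} [Field K] [NumberField K]

theorem discr_neg (h2 : finrank ℚ K = 2) (hK : IsEmpty (K →+* ℝ)) : discr K < 0 := by
  have h0 : InfinitePlace.nrRealPlaces K = 0 := by
    classical
    have h1 : InfinitePlace.nrRealPlaces K =
        Fintype.card {w : InfinitePlace K // w.IsReal} := rfl
    rw [h1, Fintype.card_eq_zero_iff]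
    refine ⟨fun w => ?_⟩
    exact hK.false (InfinitePlace.embedding_of_isReal w.2)
  have h3 := InfinitePlace.card_add_two_mul_card_eq_rank K
  rw [h0, zero_add, h2] at h3
  have h4 : InfinitePlace.nrComplexPlaces K = 1 := by omega
  have h5 := NumberField.sign_discr K
  rw [h4, pow_one] at h5
  exact Int.sign_eq_neg_one_iff_neg.mp h5

theorem QD.four_norm (q : QD K) (z : 𝓞 K) :
    4 * Algebra.norm ℤ z = (2 * q.cx z + q.t * q.cy z) ^ 2 - discr K * q.cy z ^ 2 := by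
  rw [q.norm_eq, q.discr_eq]; ring

theorem norm_pos_of_imag (h2 : finrank ℚ K = 2) (hK : IsEmpty (K →+* ℝ)) {z : 𝓞 K} (hz : z ≠ 0) :
    0 < Algebra.norm ℤ z := by
  obtain ⟨q⟩ := exists_QD h2
  have hD := discr_neg h2 hK
  have h1 := q.four_norm z
  have h3 := norm_ne_zero'.mpr hz
  have h4 : 0 ≤ 4 * Algebra.norm ℤ z := by
    rw [h1]; nlinarith [sq_nonneg (2 * q.cx z + q.t * q.cy z), sq_nonneg (q.cy z)]
  omega

theorem units_finite (h2 : finrank ℚ K = 2) (hK : IsEmpty (K →+* ℝ)) : Finite (𝓞 K)ˣ := by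
  obtain ⟨q⟩ := exists_QD h2
  have hD := discr_neg h2 hK
  have hf : Function.Injective (fun u : (𝓞 K)ˣ => ((2 * q.cx u + q.t * q.cy u, q.cy u) : ℤ × ℤ)) := by
    intro u v huv
    simp only [Prod.mk.injEq] at huv
    obtain ⟨h3, h4⟩ := huv
    rw [h4] at h3
    have h5 : q.cx u = q.cx v := by omega
    apply Units.ext
    rw [q.eq_c u, q.eq_c v, h4, h5]
  have hr : ∀ u : (𝓞 K)ˣ, ((2 * q.cx u + q.t * q.cy u, q.cy u) : ℤ × ℤ) ∈
      (Set.Icc (-2) 2 ×ˢ Set.Icc (-2) 2 : Set (ℤ × ℤ)) := by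
    intro u
    have h6 : IsUnit (Algebra.norm ℤ (u : 𝓞 K)) := u.isUnit.map _
    have h7 : Algebra.norm ℤ (u : 𝓞 K) = 1 := by
      have := norm_pos_of_imag h2 hK (z := (u : 𝓞 K)) u.ne_zero
      rcases Int.isUnit_iff.mp h6 with h | h <;> omega
    have h8 := q.four_norm u
    rw [h7] at h8
    have h9 : (2 * q.cx u + q.t * q.cy u) ^ 2 ≤ 4 := by
      nlinarith [sq_nonneg (q.cy u)]
    have h10 : (q.cy u) ^ 2 ≤ 4 := by
      nlinarith [sq_nonneg (2 * q.cx u + q.t * q.cy u), sq_nonneg (q.cy u)]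
    constructor
    · constructor <;> nlinarith
    · constructor <;> nlinarith
  have hfin : (Set.Icc (-2) 2 ×ˢ Set.Icc (-2) 2 : Set (ℤ × ℤ)).Finite :=
    (Set.finite_Icc _ _).prod (Set.finite_Icc _ _)
  have := hfin.to_subtype
  exact Finite.of_injective (fun u : (𝓞 K)ˣ =>
    (⟨_, hr u⟩ : (Set.Icc (-2) 2 ×ˢ Set.Icc (-2) 2 : Set (ℤ × ℤ))))
    (fun u v huv => hf (Subtype.ext_iff.mp huv))

/-- the input from the theory of theta series: positive definite `(A, B, C)` of discriminant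
`-det`, and a periodic function `f` with `f (d x) = χ d * f x` -/
def ThetaMF : Prop :=
  ∀ (A B C : ℤ), 0 < A → 0 < 4 * A * C - B ^ 2 → ∀ (M : ℕ), 0 < M → ∀ (f : (Fin 2 → ℤ) → ℂ),
    (∀ x y : Fin 2 → ℤ, f (x + (M : ℤ) • y) = f x) → ∀ χ : ℕ → ℂ,
    (∀ d : ℕ, 0 < d → ∀ x, f ((d : ℤ) • x) = χ d * f x) →
    Good (4 * (B ^ 2 - 4 * A * C).natAbs * M ^ 2)
      (fun d => (jacobiSym (B ^ 2 - 4 * A * C) d : ℂ) * χ d)
      (fun n => ∑ᶠ x ∈ {x : Fin 2 → ℤ | A * x 0 ^ 2 + B * x 0 * x 1 + C * x 1 ^ 2 = n}, f x)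

theorem coef_imag (h2 : finrank ℚ K = 2) (hK : IsEmpty (K →+* ℝ)) {w : K → ℂ} (hw : ∀ x, w x = 1)
    {b : Ideal (𝓞 K)} (hb : b ≠ ⊥) (F : LF b) (ξ : Ideal (𝓞 K) →*₀ ℂ) (hξb : ξ b ≠ 0) (M : ℕ)
    {n : ℕ} (hn : n ≠ 0) :
    ∑ᶠ x ∈ {x : Fin 2 → ℤ | F.A * x 0 ^ 2 + F.B * x 0 * x 1 + F.C * x 1 ^ 2 = n},
      xf ξ M w (F.L x) / ξ b
      = (Nat.card (𝓞 K)ˣ : ℂ) * ∑ᶠ I ∈ {I : Ideal (𝓞 K) | absNorm I = n ∧ NP I b}, ξ I := by
  have hNb : (absNorm b : ℤ) ≠ 0 := by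
    exact_mod_cast fun h => hb (absNorm_eq_zero_iff.mp h)
  have := units_finite h2 hK
  have hc0 : 0 < Nat.card (𝓞 K)ˣ := Nat.card_pos
  have hu : ∀ x ∈ b, 0 < Algebra.norm ℤ x →
      {u : (𝓞 K)ˣ | (u : 𝓞 K) * x ∈ {x | x ∈ b ∧ 0 < Algebra.norm ℤ x}}.ncard
        = Nat.card (𝓞 K)ˣ := by
    intro x hxb hx
    have : {u : (𝓞 K)ˣ | (u : 𝓞 K) * x ∈ {x | x ∈ b ∧ 0 < Algebra.norm ℤ x}} = Set.univ := by
      ext u
      simp only [Set.mem_univ, iff_true]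
      refine ⟨Ideal.mul_mem_left _ _ hxb, ?_⟩
      exact norm_pos_of_imag h2 hK (mul_ne_zero u.ne_zero (ne_zero_of_norm_pos hx))
    rw [this, Set.ncard_univ]
  have hψ : ∀ x ∈ {x | x ∈ b ∧ 0 < Algebra.norm ℤ x}, ∀ I : Ideal (𝓞 K), I * b = span {x} →
      xf ξ M w x / ξ b = ξ I := by
    rintro x ⟨hxb, hx⟩ I hI
    rw [xf_of_ne _ _ _ (ne_zero_of_norm_pos hx), hw, one_mul, ← hI, map_mul]
    field_simp
  obtain ⟨-, h1⟩ := unfold_sum hb {x | x ∈ b ∧ 0 < Algebra.norm ℤ x} hc0 (fun x hx => hx) hu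
    (fun x => xf ξ M w x / ξ b) (fun I => ξ I) hψ n
  rw [← h1]
  have himg : {x | x ∈ {x | x ∈ b ∧ 0 < Algebra.norm ℤ x} ∧
      Algebra.norm ℤ x = n * absNorm b}
      = F.L '' {x : Fin 2 → ℤ | F.A * x 0 ^ 2 + F.B * x 0 * x 1 + F.C * x 1 ^ 2 = n} := by
    ext z
    constructor
    · rintro ⟨⟨hzb, -⟩, hz⟩
      obtain ⟨x, rfl⟩ := (F.mem z).mp hzb
      refine ⟨x, ?_, rfl⟩
      rw [F.nrm, mul_comm] at hz
      exact mul_right_cancel₀ hNb hz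
    · rintro ⟨x, hx, rfl⟩
      have hx' : F.A * x 0 ^ 2 + F.B * x 0 * x 1 + F.C * x 1 ^ 2 = n := hx
      have hz : Algebra.norm ℤ (F.L x) = n * absNorm b := by
        rw [F.nrm, hx', mul_comm]
      refine ⟨⟨F.L_mem x, ?_⟩, hz⟩
      rw [hz]
      have h3 : 0 < (absNorm b : ℤ) := by positivity
      have h4 : 0 < (n : ℤ) := by positivity
      positivity
  rw [himg, finsum_mem_image F.inj.injOn]

/-- P5, imaginary quadratic case, from theta series -/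
theorem P5_imag (hθ : ThetaMF) (h2 : finrank ℚ K = 2) (hK : IsEmpty (K →+* ℝ)) {w : K → ℂ}
    (hw : ∀ x, w x = 1) {M0 : ℕ} (hM0 : 0 < M0) (ξ : Ideal (𝓞 K) →*₀ ℂ) (hξ : IsRay ξ M0 w) :
    ∃ a0 : ℂ, Good (4 * (discr K).natAbs * M0 ^ 2) (neben ξ)
      (fun n => if n = 0 then a0 else coef ξ n) := by
  classical
  have hsign : IsSign w := Or.inl ⟨hK, hw⟩
  obtain ⟨B, hB, hBI⟩ := exists_reps h2 hM0
  have hLF : ∀ b : B, Nonempty (LF (b : Ideal (𝓞 K))) := fun b => exists_LF h2 (hB b b.2).1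
  let F : ∀ b : B, LF (b : Ideal (𝓞 K)) := fun b => (hLF b).some
  have hξb : ∀ b : B, ξ (b : Ideal (𝓞 K)) ≠ 0 := fun b => (hξ.supp _).mpr (hB b b.2).2
  have hfin := units_finite h2 hK
  have hc0 : (Nat.card (𝓞 K)ˣ : ℂ) ≠ 0 := by
    have : 0 < Nat.card (𝓞 K)ˣ := Nat.card_pos
    exact_mod_cast this.ne'
  have hD := discr_neg h2 hK
  have hgood : ∀ b : B, Good (4 * (discr K).natAbs * M0 ^ 2) (neben ξ)
      (fun n => ∑ᶠ x ∈ {x : Fin 2 → ℤ |
        (F b).A * x 0 ^ 2 + (F b).B * x 0 * x 1 + (F b).C * x 1 ^ 2 = n},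
        xf ξ M0 w ((F b).L x) / ξ b) := by
    intro b
    have hA : 0 < (F b).A := by
      have h3 := (F b).nrm ![1, 0]
      have h4 : (F b).L ![1, 0] ≠ 0 := by
        rw [Ne, (F b).L_zero_iff]
        intro h
        have := congrFun h 0
        simp at this
      have h5 := norm_pos_of_imag h2 hK h4
      rw [h3] at h5
      simp only [Matrix.cons_val_zero, Matrix.cons_val_one] at h5
      have h6 : (0 : ℤ) ≤ absNorm (b : Ideal (𝓞 K)) := by positivity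
      by_contra hneg
      push Not at hneg
      nlinarith
    have hdisc := (F b).disc
    have h := hθ (F b).A (F b).B (F b).C hA (by rw [← hdisc] at hD; linarith) M0 hM0
      (fun x => xf ξ M0 w ((F b).L x) / ξ b) ?_ (fun d => ξ (idl K d)) ?_
    · rw [hdisc] at h
      exact h
    · intro x y
      congr 1
      apply xf_congr hsign hξ
      rw [map_add, (F b).L_smul, add_sub_cancel_left]
      exact Ideal.mul_mem_right _ _ (Ideal.mem_span_singleton_self _)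
    · intro d hd x
      rw [(F b).L_smul, Int.cast_natCast, xf_nat_mul hsign hξ hd]
      ring
  have hsum := Good.smul ((Nat.card (𝓞 K)ˣ : ℂ)⁻¹) (Good.sum Finset.univ _ (fun b _ => hgood b))
  refine ⟨(Nat.card (𝓞 K)ˣ : ℂ)⁻¹ * ∑ b : B, ∑ᶠ x ∈ {x : Fin 2 → ℤ |
      (F b).A * x 0 ^ 2 + (F b).B * x 0 * x 1 + (F b).C * x 1 ^ 2 = ((0 : ℕ) : ℤ)},
      xf ξ M0 w ((F b).L x) / ξ b, ?_⟩
  · convert! hsum using 1
    funext n
    by_cases hn : n = 0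
    · rw [if_pos hn, hn]
    · rw [if_neg hn]
      have h7 : ∀ b : B, ∑ᶠ x ∈ {x : Fin 2 → ℤ |
          (F b).A * x 0 ^ 2 + (F b).B * x 0 * x 1 + (F b).C * x 1 ^ 2 = n},
          xf ξ M0 w ((F b).L x) / ξ b
          = (Nat.card (𝓞 K)ˣ : ℂ) *
            ∑ᶠ I ∈ {I : Ideal (𝓞 K) | absNorm I = n ∧ NP I (b : Ideal (𝓞 K))}, ξ I := fun b =>
        coef_imag h2 hK hw (hB b b.2).1 (F b) ξ (hξb b) M0 hn
      simp_rw [h7]
      rw [← Finset.mul_sum, ← mul_assoc, inv_mul_cancel₀ hc0, one_mul,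
        ← sum_classes hBI ξ hn]
      exact (Finset.sum_coe_sort B
        (fun b => ∑ᶠ I ∈ {I : Ideal (𝓞 K) | absNorm I = n ∧ NP I b}, ξ I)).symm

end Vale.Agent.P022.H436
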