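import Vale.Agent.P022.H191.Cone

/-! Block A: the L-series of a nontrivial narrow ray class character is bounded near `1`, from the
comparison of the partial zeta functions. -/

namespace Vale.Agent.P022.H436

open NumberField Ideal IsDedekindDomain Filter Topology
open scoped ENNReal
open Vale.Agent.P001.H200.Ded
open Vale.Agent.P022.H191

section

variable {K : Type} [Field K] [NumberField K]

theorem isP_coprime {M : ℕ} {I : Ideal (𝓞 K)} (h : IsP M I) : IsCoprime I (idl K M) := by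
  obtain ⟨α, h1, h2, h3, rfl⟩ := h
  rw [Ideal.isCoprime_iff_exists]
  exact ⟨α, Ideal.mem_span_singleton_self α, -(α - 1), Submodule.neg_mem _ h2, by ring⟩

theorem isP_ne_bot {M : ℕ} {I : Ideal (𝓞 K)} (h : IsP M I) : I ≠ ⊥ := by
  obtain ⟨α, h1, h2, h3, rfl⟩ := h
  rwa [Ne, Ideal.span_singleton_eq_bot]

omit [NumberField K] in
theorem pos_aux {α β γ : 𝓞 K} (hβγ : γ = α * β) (σ : K →+* ℝ) (h1 : 0 < σ (α : K))
    (h2 : 0 < σ (γ : K)) : 0 < σ (β : K) := by
  have this := h2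
  rw [hβγ] at this
  push_cast at this
  rw [map_mul] at this
  exact (mul_pos_iff_of_pos_left h1).1 this

theorem can_aux {α β γ : 𝓞 K} {B : Ideal (𝓞 K)} (h1 : α ≠ 0) (hβγ : γ = α * β)
    (h : Ideal.span {α} * B = Ideal.span {γ}) : B = Ideal.span {β} := by
  have h6 : (Ideal.span {α} : Ideal (𝓞 K)) ≠ 0 := by
    rw [Ne, Ideal.zero_eq_bot, Ideal.span_singleton_eq_bot]
    exact h1
  have h7 : (Ideal.span {α} : Ideal (𝓞 K)) * B = Ideal.span {α} * Ideal.span {β} := by
    rw [Ideal.span_singleton_mul_span_singleton, ← hβγ]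
    exact h
  exact mul_left_cancel₀ h6 h7

theorem con_aux {M : ℕ} {α β γ : 𝓞 K} (hβγ : γ = α * β)
    (h2 : α - 1 ∈ idl K M) (k2 : γ - 1 ∈ idl K M) : β - 1 ∈ idl K M := by
  have : β - 1 = (γ - 1) - β * (α - 1) := by rw [hβγ]; ring
  rw [this]
  exact Ideal.sub_mem _ k2 (Ideal.mul_mem_left _ _ h2)

omit [NumberField K] in
theorem dvd_aux {α γ : 𝓞 K} {B : Ideal (𝓞 K)}
    (h : Ideal.span {α} * B = Ideal.span {γ}) : ∃ β, γ = α * β := by
  have hdvd : γ ∈ Ideal.span {α} * B := by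
    rw [h]; exact Ideal.mem_span_singleton_self γ
  have h5 : γ ∈ Ideal.span {α} := Ideal.mul_le_left hdvd
  exact Ideal.mem_span_singleton.1 h5

theorem isP_cancel {M : ℕ} {A B : Ideal (𝓞 K)} (hA : IsP M A) (hAB : IsP M (A * B)) :
    IsP M B := by
  obtain ⟨α, h1, h2, h3, hα⟩ := hA
  obtain ⟨γ, k1, k2, k3, hγ⟩ := hAB
  rw [hα] at hγ
  obtain ⟨β, hβγ⟩ := dvd_aux hγ
  refine ⟨β, ?_, con_aux hβγ h2 k2, fun σ => pos_aux hβγ σ (h3 σ) (k3 σ), can_aux h1 hβγ hγ⟩
  rintro rfl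
  rw [mul_zero] at hβγ
  exact k1 hβγ
variable (K) in
/-- nonzero ideals prime to `M` -/
def SI (M : ℕ) : Type := {I : Ideal (𝓞 K) // I ≠ ⊥ ∧ IsCoprime I (idl K M)}

/-- narrow ray class equivalence -/
def rel {M : ℕ} (I J : SI K M) : Prop := ∃ C : SI K M, IsP M (I.1 * C.1) ∧ IsP M (J.1 * C.1)

theorem SI.mul {M : ℕ} (I J : SI K M) : I.1 * J.1 ≠ ⊥ ∧ IsCoprime (I.1 * J.1) (idl K M) :=
  ⟨mul_ne_zero I.2.1 J.2.1, I.2.2.mul_left J.2.2⟩

theorem exists_inv {M : ℕ} (hM : 0 < M) (I : SI K M) : ∃ C : SI K M, IsP M (I.1 * C.1) := by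
  obtain ⟨k, hk, h⟩ := exists_pow_isP hM I.2.1 I.2.2
  obtain ⟨k, rfl⟩ := Nat.exists_eq_add_of_le' hk
  refine ⟨⟨I.1 ^ k, pow_ne_zero _ I.2.1, I.2.2.pow_left⟩, ?_⟩
  change IsP M (I.1 * I.1 ^ k)
  rwa [← pow_succ']

theorem rel_refl {M : ℕ} (hM : 0 < M) (I : SI K M) : rel I I := by
  obtain ⟨C, hC⟩ := exists_inv hM I
  exact ⟨C, hC, hC⟩

theorem rel_symm {M : ℕ} {I J : SI K M} (h : rel I J) : rel J I := by
  obtain ⟨C, h1, h2⟩ := h
  exact ⟨C, h2, h1⟩

theorem rel_trans {M : ℕ} {I J L : SI K M} (h : rel I J) (h' : rel J L) : rel I L := by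
  obtain ⟨C, h1, h2⟩ := h
  obtain ⟨C', k1, k2⟩ := h'
  refine ⟨⟨C.1 * (J.1 * C'.1), mul_ne_zero C.2.1 (J.mul C').1, C.2.2.mul_left (J.mul C').2⟩, ?_, ?_⟩
  · have : I.1 * (C.1 * (J.1 * C'.1)) = (I.1 * C.1) * (J.1 * C'.1) := by ring
    change IsP M (I.1 * (C.1 * (J.1 * C'.1)))
    rw [this]
    exact h1.mul k1
  · have : L.1 * (C.1 * (J.1 * C'.1)) = (L.1 * C'.1) * (J.1 * C.1) := by ring
    change IsP M (L.1 * (C.1 * (J.1 * C'.1)))
    rw [this]
    exact k2.mul h2

theorem rel_mul {M : ℕ} (hM : 0 < M) {I J : SI K M} (h : rel I J) (A : SI K M) :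
    rel ⟨I.1 * A.1, I.mul A⟩ ⟨J.1 * A.1, J.mul A⟩ := by
  obtain ⟨C, h1, h2⟩ := h
  obtain ⟨D, hD⟩ := exists_inv hM A
  refine ⟨⟨C.1 * D.1, C.mul D⟩, ?_, ?_⟩
  · have : I.1 * A.1 * (C.1 * D.1) = (I.1 * C.1) * (A.1 * D.1) := by ring
    change IsP M (I.1 * A.1 * (C.1 * D.1))
    rw [this]
    exact h1.mul hD
  · have : J.1 * A.1 * (C.1 * D.1) = (J.1 * C.1) * (A.1 * D.1) := by ring
    change IsP M (J.1 * A.1 * (C.1 * D.1))
    rw [this]
    exact h2.mul hD

/-- if `r b` is in `P` then the class of `r` is `{I : I b in P}` -/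
theorem rel_iff {M : ℕ} {r b : SI K M} (hb : IsP M (r.1 * b.1)) (I : SI K M) :
    rel I r ↔ IsP M (I.1 * b.1) := by
  constructor
  · rintro ⟨C, h1, h2⟩
    refine isP_cancel h2 ?_
    have : r.1 * C.1 * (I.1 * b.1) = (I.1 * C.1) * (r.1 * b.1) := by ring
    rw [this]
    exact h1.mul hb
  · intro h
    exact ⟨b, h, hb⟩

/-- the setoid -/
def stoid {M : ℕ} (hM : 0 < M) : Setoid (SI K M) where
  r := rel
  iseqv := ⟨rel_refl hM, rel_symm, rel_trans⟩

theorem exists_unit_pow {M : ℕ} (hM : 0 < M) {β : 𝓞 K} (hβ : IsCoprime (Ideal.span {β}) (idl K M)) :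
    ∃ k : ℕ, β * β ^ (2 * k + 1) - 1 ∈ idl K M := by
  have : Finite (𝓞 K ⧸ idl K M) := Ideal.finiteQuotientOfFreeOfNeBot _ (idl_ne_bot hM)
  have hunit : IsUnit (Ideal.Quotient.mk (idl K M) β) := by
    rw [Ideal.isCoprime_iff_exists] at hβ
    obtain ⟨x, hx, y, hy, hxy⟩ := hβ
    obtain ⟨c, rfl⟩ := Ideal.mem_span_singleton.1 hx
    have h2 := congrArg (Ideal.Quotient.mk (idl K M)) hxy
    rw [map_add, Ideal.Quotient.eq_zero_iff_mem.2 hy, add_zero, map_mul, map_one] at h2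
    exact IsUnit.of_mul_eq_one _ h2
  obtain ⟨u, hu⟩ := hunit
  have hfin : Finite (𝓞 K ⧸ idl K M)ˣ := inferInstance
  have hk : 0 < Nat.card (𝓞 K ⧸ idl K M)ˣ := Nat.card_pos
  refine ⟨Nat.card (𝓞 K ⧸ idl K M)ˣ - 1, ?_⟩
  have e : β * β ^ (2 * (Nat.card (𝓞 K ⧸ idl K M)ˣ - 1) + 1) =
      β ^ (2 * Nat.card (𝓞 K ⧸ idl K M)ˣ) := by
    rw [← pow_succ']
    congr 1
    omega
  rw [e, ← Ideal.Quotient.eq_zero_iff_mem, map_sub, map_pow, map_one, ← hu, mul_comm 2, pow_mul,
    ← Units.val_pow_eq_pow_val, pow_card_eq_one', Units.val_one, one_pow, sub_self]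

theorem finite_quot {M : ℕ} (hM : 0 < M) : Finite (Quotient (stoid (K := K) hM)) := by
  classical
  have : Finite (𝓞 K ⧸ idl K M) := Ideal.finiteQuotientOfFreeOfNeBot _ (idl_ne_bot hM)
  have hfe : Finite (K →+* ℝ) := inferInstance
  -- class of an ideal
  let cl : SI K M → ClassGroup (𝓞 K) := fun I =>
    ClassGroup.mk0 ⟨I.1, mem_nonZeroDivisors_of_ne_zero I.2.1⟩
  -- for each ideal class which is hit, a multiplier making it principal
  have hR : ∀ c : ClassGroup (𝓞 K), ∃ R : SI K M, ∀ I : SI K M, cl I = c →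
      ∃ β : 𝓞 K, I.1 * R.1 = Ideal.span {β} := by
    intro c
    by_cases hc : ∃ J : SI K M, cl J = c
    · obtain ⟨J, rfl⟩ := hc
      obtain ⟨C, hC⟩ := exists_inv hM J
      refine ⟨C, fun I hI => ?_⟩
      have h1 : cl I * cl C = 1 := by
        rw [hI]
        obtain ⟨α, h1, h2, h3, h4⟩ := hC
        change ClassGroup.mk0 _ * ClassGroup.mk0 _ = 1
        rw [← map_mul, ClassGroup.mk0_eq_one_iff]
        change (J.1 * C.1).IsPrincipal
        rw [h4]
        exact ⟨α, rfl⟩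
      change ClassGroup.mk0 _ * ClassGroup.mk0 _ = 1 at h1
      rw [← map_mul, ClassGroup.mk0_eq_one_iff] at h1
      change (I.1 * C.1).IsPrincipal at h1
      obtain ⟨β, hβ⟩ := h1
      exact ⟨β, hβ⟩
    · push Not at hc
      exact ⟨⟨⊤, top_ne_bot, by rw [Ideal.isCoprime_iff_sup_eq, top_sup_eq]⟩, fun I hI => absurd hI (hc I)⟩
  choose R hR using hR
  have hβ' : ∀ I : SI K M, ∃ β : 𝓞 K, I.1 * (R (cl I)).1 = Ideal.span {β} := fun I =>
    hR _ I rfl
  choose β hβ using hβ'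
  let data : SI K M → ClassGroup (𝓞 K) × (𝓞 K ⧸ idl K M) × ((K →+* ℝ) → Prop) := fun I =>
    (cl I, Ideal.Quotient.mk _ (β I), fun σ => 0 < σ (β I : K))
  have key : ∀ I J : SI K M, data I = data J → rel I J := by
    intro I J h
    simp only [data, Prod.mk.injEq] at h
    obtain ⟨h1, h2, h3⟩ := h
    have hI0 : β I ≠ 0 := by
      intro h0
      have := hβ I
      rw [h0, Ideal.span_singleton_eq_bot.2 rfl] at this
      exact (I.mul _).1 this
    have hJ0 : β J ≠ 0 := by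
      intro h0
      have := hβ J
      rw [h0, Ideal.span_singleton_eq_bot.2 rfl] at this
      exact (J.mul _).1 this
    have hco : IsCoprime (Ideal.span {β I}) (idl K M) := hβ I ▸ (I.mul (R (cl I))).2
    obtain ⟨k, hk⟩ := exists_unit_pow hM hco
    have hspan : Ideal.span {β I ^ (2 * k + 1)} ≠ ⊥ ∧
        IsCoprime (Ideal.span {β I ^ (2 * k + 1)}) (idl K M) := by
      rw [← Ideal.span_singleton_pow]
      refine ⟨pow_ne_zero _ ?_, hco.pow_left⟩
      rw [← hβ I]
      exact (I.mul _).1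
    refine ⟨⟨(R (cl I)).1 * Ideal.span {β I ^ (2 * k + 1)},
      mul_ne_zero (R (cl I)).2.1 hspan.1, (R (cl I)).2.2.mul_left hspan.2⟩, ?_, ?_⟩
    · change IsP M (I.1 * ((R (cl I)).1 * Ideal.span {β I ^ (2 * k + 1)}))
      refine ⟨β I * β I ^ (2 * k + 1), mul_ne_zero hI0 (pow_ne_zero _ hI0), hk, fun σ => ?_, ?_⟩
      · push_cast
        rw [map_mul, map_pow]
        have h5 : σ (β I : K) ≠ 0 := by
          rw [map_ne_zero]
          exact_mod_cast hI0
        have h6 : σ (β I : K) * σ (β I : K) ^ (2 * k + 1) = (σ (β I : K) ^ (k + 1)) ^ 2 := by ring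
        rw [h6]
        positivity
      · rw [← mul_assoc, hβ I, Ideal.span_singleton_mul_span_singleton]
    · change IsP M (J.1 * ((R (cl I)).1 * Ideal.span {β I ^ (2 * k + 1)}))
      refine ⟨β J * β I ^ (2 * k + 1), mul_ne_zero hJ0 (pow_ne_zero _ hI0), ?_, fun σ => ?_, ?_⟩
      · have h4 : β J - β I ∈ idl K M := by
          rw [← Ideal.Quotient.eq_zero_iff_mem, map_sub, h2, sub_self]
        have h5 : β J * β I ^ (2 * k + 1) - 1 =
            β I ^ (2 * k + 1) * (β J - β I) + (β I * β I ^ (2 * k + 1) - 1) := by ring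
        rw [h5]
        exact Ideal.add_mem _ (Ideal.mul_mem_left _ _ h4) hk
      · push_cast
        rw [map_mul, map_pow]
        have h5 : σ (β I : K) ≠ 0 := by
          rw [map_ne_zero]
          exact_mod_cast hI0
        have h5' : σ (β J : K) ≠ 0 := by
          rw [map_ne_zero]
          exact_mod_cast hJ0
        have h6 : (0 < σ (β I : K)) = (0 < σ (β J : K)) := congrFun h3 σ
        have h7 : 0 < σ (β J : K) * σ (β I : K) := by
          rcases lt_or_gt_of_ne h5 with h | h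
          · have h8 : ¬ 0 < σ (β J : K) := by rw [← h6]; exact not_lt.2 h.le
            exact mul_pos_of_neg_of_neg (lt_of_le_of_ne (not_lt.1 h8) h5') h
          · exact mul_pos (h6 ▸ h) h
        have h8 : σ (β J : K) * σ (β I : K) ^ (2 * k + 1) =
            (σ (β J : K) * σ (β I : K)) * (σ (β I : K) ^ k) ^ 2 := by ring
        rw [h8]
        positivity
      · rw [← mul_assoc, h1, hβ J, Ideal.span_singleton_mul_span_singleton]
  have hfin : Finite (ClassGroup (𝓞 K) × (𝓞 K ⧸ idl K M) × ((K →+* ℝ) → Prop)) := inferInstance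
  have hinj : Function.Injective (fun q : Quotient (stoid (K := K) hM) => data q.out) := by
    intro q q' h
    have h1 := key _ _ h
    rw [← Quotient.out_eq q, ← Quotient.out_eq q']
    exact Quotient.sound h1
  exact Finite.of_injective _ hinj

end

/-- the partial zeta functions are finite where the Dedekind zeta function is -/
theorem Zb_ne_top {K : Type} [Field K] [NumberField K] (M : ℕ) (𝔟 : Ideal (𝓞 K)) {s : ℝ}
    (hs : zetaE K s ≠ ∞) : Zb M 𝔟 s ≠ ∞ := by
  refine ne_top_of_le_ne_top hs ?_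
  unfold Zb zetaE
  exact ENNReal.tsum_comp_le_tsum_of_injective Subtype.val_injective _

theorem blockA : BlockA := by
  intro hcomp K _ _ hdeg M hM ψ hψ ⟨𝔞, ha0, hac, ha1⟩
  classical
  have hC := hcomp K hdeg M hM
  have := finite_quot (K := K) hM
  let st := stoid (K := K) hM
  let _ : Fintype (Quotient (stoid (K := K) hM)) := Fintype.ofFinite _
  -- ψ on classes
  have hψr : ∀ I J : SI K M, rel I J → ψ I.1 = ψ J.1 := by
    rintro I J ⟨C, h1, h2⟩
    have e1 := hψ.isP h1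
    have e2 := hψ.isP h2
    rw [map_mul] at e1 e2
    have h3 : ψ C.1 ≠ 0 := right_ne_zero_of_mul_eq_one e1
    exact mul_right_cancel₀ h3 (e1.trans e2.symm)
  let Q := Quotient (stoid (K := K) hM)
  let ψb : Q → ℂ := Quotient.lift (fun I : SI K M => ψ I.1) hψr
  let A : SI K M := ⟨𝔞, ha0, hac⟩
  let tr : Q → Q := Quotient.lift (fun I : SI K M => (Quotient.mk _ ⟨I.1 * A.1, I.mul A⟩ : Q))
    (fun I J h => Quotient.sound (rel_mul hM h A))
  have htr_inj : Function.Injective tr := by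
    intro q q'
    induction q using Quotient.inductionOn with | _ I => ?_
    induction q' using Quotient.inductionOn with | _ J => ?_
    intro h
    have h1 : rel (⟨I.1 * A.1, I.mul A⟩ : SI K M) ⟨J.1 * A.1, J.mul A⟩ := Quotient.exact h
    obtain ⟨C, h2, h3⟩ := h1
    refine Quotient.sound ⟨⟨A.1 * C.1, A.mul C⟩, ?_, ?_⟩
    · change IsP M (I.1 * (A.1 * C.1))
      rw [← mul_assoc]
      exact h2
    · change IsP M (J.1 * (A.1 * C.1))
      rw [← mul_assoc]
      exact h3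
  have htr : Function.Bijective tr := Finite.injective_iff_bijective.1 htr_inj
  have hψtr : ∀ q, ψb (tr q) = ψb q * ψ 𝔞 := by
    intro q
    induction q using Quotient.inductionOn with | _ I => ?_
    change ψ (I.1 * 𝔞) = ψ I.1 * ψ 𝔞
    rw [map_mul]
  have hsum0 : ∑ q : Q, ψb q = 0 := by
    have h1 : ∑ q : Q, ψb (tr q) = ∑ q : Q, ψb q :=
      Fintype.sum_bijective tr htr _ _ fun _ => rfl
    simp only [hψtr] at h1
    rw [← Finset.sum_mul] at h1
    have h2 : (∑ q : Q, ψb q) * (ψ 𝔞 - 1) = 0 := by rw [mul_sub, mul_one, h1, sub_self]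
    rcases mul_eq_zero.1 h2 with h | h
    · exact h
    · exact absurd (sub_eq_zero.1 h) ha1
  -- inverses of the representatives
  have hb : ∀ q : Q, ∃ b : SI K M, IsP M ((Quotient.out q).1 * b.1) := fun q => exists_inv hM _
  choose b hb using hb
  have hclass : ∀ (q : Q) (I : SI K M), (Quotient.mk _ I : Q) = q ↔ IsP M (I.1 * (b q).1) := by
    intro q I
    rw [← rel_iff (hb q) I]
    constructor
    · intro h
      have h1 : (Quotient.mk _ I : Q) = Quotient.mk _ (Quotient.out q) := by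
        rw [h, Quotient.out_eq]
      exact Quotient.exact h1
    · intro h
      rw [← Quotient.out_eq q]
      exact Quotient.sound h
  have hψ1 : ∀ I, ‖ψ I‖ ≤ 1 := fun I => hψ.norm_le hM I
  have hψb1 : ∀ q, ‖ψb q‖ ≤ 1 := by
    intro q
    induction q using Quotient.inductionOn with | _ I => ?_
    exact hψ1 I.1
  -- pointwise decomposition
  have hpt : ∀ (s : ℝ) (I : Ideal (𝓞 K)), tm ψ s I =
      ∑ q : Q, ψb q * ((({I | IsP M (I * (b q).1)} : Set (Ideal (𝓞 K))).indicator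
        (fun I => (absNorm I : ℝ) ^ (-s)) I : ℝ) : ℂ) := by
    intro s I
    by_cases hI : I ≠ ⊥ ∧ IsCoprime I (idl K M)
    · rw [Finset.sum_eq_single (Quotient.mk _ ⟨I, hI⟩ : Q)]
      · rw [Set.indicator_of_mem]
        · rfl
        · exact (hclass _ ⟨I, hI⟩).1 rfl
      · intro q _ hq
        rw [Set.indicator_of_notMem, Complex.ofReal_zero, mul_zero]
        intro h
        exact hq ((hclass q ⟨I, hI⟩).2 h).symm
      · intro h
        exact absurd (Finset.mem_univ _) h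
    · rw [Finset.sum_eq_zero]
      · unfold tm
        by_cases h0 : I = ⊥
        · rw [h0, ← Ideal.zero_eq_bot, map_zero, zero_mul]
        · have h1 : ¬ IsCoprime I (idl K M) := fun h => hI ⟨h0, h⟩
          have h2 : ψ I = 0 := by
            by_contra hcon
            exact h1 ((hψ.supp I h0).1 hcon)
          rw [h2, zero_mul]
      · intro q _
        rw [Set.indicator_of_notMem, Complex.ofReal_zero, mul_zero]
        intro h
        refine hI ⟨fun h0 => ?_, (IsCoprime.mul_left_iff.1 (isP_coprime h)).1⟩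
        subst h0
        exact isP_ne_bot h (zero_mul ((b q).1 : Ideal (𝓞 K)))
  -- comparison constants
  by_cases hQ : Nonempty Q
  swap
  · refine ⟨0, Filter.Eventually.of_forall fun s => ?_⟩
    have : ∀ I, tm ψ s I = 0 := fun I => by
      rw [hpt, Finset.sum_eq_zero]
      intro q
      exact absurd ⟨q⟩ hQ
    simp [this]
  obtain ⟨q0⟩ := hQ
  have hcmp : ∀ q : Q, ∃ C : ℝ, 0 ≤ C ∧ ∀ᶠ s : ℝ in 𝓝[>] 1,
      |(Zb M (b q).1 s).toReal - (Zb M (b q0).1 s).toReal| ≤ C := by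
    intro q
    obtain ⟨C1, h1⟩ := hC (b q).1 (b q0).1 (b q).2.1 (b q0).2.1 (b q).2.2 (b q0).2.2
    obtain ⟨C2, h2⟩ := hC (b q0).1 (b q).1 (b q0).2.1 (b q).2.1 (b q0).2.2 (b q).2.2
    refine ⟨max (max C1 0) (max C2 0), by positivity, ?_⟩
    filter_upwards [h1, h2, eventually_ne_top K] with s h1 h2 hs
    have e1 := Zb_ne_top M (b q).1 hs
    have e2 := Zb_ne_top M (b q0).1 hs
    have key : ∀ {x y : ℝ≥0∞} {C : ℝ}, x ≠ ∞ → y ≠ ∞ → x ≤ y + ENNReal.ofReal C →
        x.toReal - y.toReal ≤ max C 0 := by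
      intro x y C hx hy h
      have h3 := (ENNReal.toReal_le_toReal hx (by finiteness)).2 h
      rw [ENNReal.toReal_add hy (by finiteness), ENNReal.toReal_ofReal'] at h3
      linarith
    have k1 := key e1 e2 h1
    have k2 := key e2 e1 h2
    rw [abs_le]
    constructor
    · have := le_max_right (max C1 0) (max C2 0)
      linarith
    · have := le_max_left (max C1 0) (max C2 0)
      linarith
  choose C hC0 hC1 using hcmp
  refine ⟨∑ q : Q, C q, ?_⟩
  have hall : ∀ᶠ s : ℝ in 𝓝[>] 1, ∀ q : Q,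
      |(Zb M (b q).1 s).toReal - (Zb M (b q0).1 s).toReal| ≤ C q :=
    Filter.eventually_all.2 hC1
  filter_upwards [hall, eventually_ne_top K] with s hs1 hs
  have hsummable := summable_norm hs
  have hind : ∀ q : Q, Summable (fun I : Ideal (𝓞 K) =>
      ({I | IsP M (I * (b q).1)} : Set (Ideal (𝓞 K))).indicator
        (fun I => (absNorm I : ℝ) ^ (-s)) I) := fun q => hsummable.indicator _
  have hZ : ∀ q : Q, ∑' I : Ideal (𝓞 K), ({I | IsP M (I * (b q).1)} : Set (Ideal (𝓞 K))).indicator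
        (fun I => (absNorm I : ℝ) ^ (-s)) I = (Zb M (b q).1 s).toReal := by
    intro q
    rw [← tsum_subtype ({I | IsP M (I * (b q).1)} : Set (Ideal (𝓞 K)))
      (fun I => (absNorm I : ℝ) ^ (-s))]
    unfold Zb
    rw [ENNReal.tsum_toReal_eq (fun _ => ENNReal.ofReal_ne_top)]
    refine tsum_congr fun I => ?_
    rw [ENNReal.toReal_ofReal (by positivity)]
  have htot : ∑' I : Ideal (𝓞 K), tm ψ s I =
      ∑ q : Q, ψb q * (((Zb M (b q).1 s).toReal : ℝ) : ℂ) := by
    have h1 : ∀ q ∈ (Finset.univ : Finset Q), Summable (fun I : Ideal (𝓞 K) =>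
        ψb q * ((({I | IsP M (I * (b q).1)} : Set (Ideal (𝓞 K))).indicator
          (fun I => (absNorm I : ℝ) ^ (-s)) I : ℝ) : ℂ)) := fun q _ =>
      (Complex.ofRealCLM.summable (hind q)).mul_left _
    rw [tsum_congr (hpt s), Summable.tsum_finsetSum h1]
    refine Finset.sum_congr rfl fun q _ => ?_
    rw [tsum_mul_left, ← Complex.ofReal_tsum, hZ q]
  have hsub : ∑ q : Q, ψb q * (((Zb M (b q).1 s).toReal : ℝ) : ℂ) =
      ∑ q : Q, ψb q * ((((Zb M (b q).1 s).toReal - (Zb M (b q0).1 s).toReal : ℝ)) : ℂ) := by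
    have h2 : ∑ q : Q, ψb q * (((Zb M (b q0).1 s).toReal : ℝ) : ℂ) = 0 := by
      rw [← Finset.sum_mul, hsum0, zero_mul]
    rw [← sub_zero (∑ q : Q, ψb q * (((Zb M (b q).1 s).toReal : ℝ) : ℂ)), ← h2,
      ← Finset.sum_sub_distrib]
    refine Finset.sum_congr rfl fun q _ => ?_
    push_cast
    ring
  rw [htot, hsub]
  refine (norm_sum_le _ _).trans (Finset.sum_le_sum fun q _ => ?_)
  rw [norm_mul, Complex.norm_real, Real.norm_eq_abs]
  calc ‖ψb q‖ * |(Zb M (b q).1 s).toReal - (Zb M (b q0).1 s).toReal| ≤ 1 * C q :=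
        mul_le_mul (hψb1 q) (hs1 q) (abs_nonneg _) zero_le_one
    _ = C q := one_mul _

end Vale.Agent.P022.H436
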