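import Vale.Agent.P022.H436.HeckeSys
import Vale.Agent.P022.H120.Final
import Vale.Agent.P022.H380.Q3
import Vale.Agent.P022.H23.QExp

/-! The automorphic side, final form. -/

open scoped ModularForm MatrixGroups Manifold Topology
open UpperHalfPlane CongruenceSubgroup Matrix NumberField

noncomputable section

namespace Vale.Agent.P022.H436

open Vale.Agent.P022 Vale.Agent.P022.H120

theorem q3s : Q3s_statement := by
  intro v hv N _ m k G c t d D h1 h3 h4 h5 P hP
  exact H380.Q3' H23.Q1 H23.Q2 v hv N m k G c t d D h1 h3 h4 h5 P hP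

/-- The automorphic side. -/
theorem heckeSys : H120.HeckeSys := by
  intro v hv K _ _ hK w hw N0 hN0 Ψ hΨ _
  exact hecke_sys (H903.key q3s) hv hK hw hN0 hΨ

end Vale.Agent.P022.H436
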