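import Mathlib

namespace Vale.Agent.P022.H436

open NumberField Module

/-- integral data of a quadratic field: a basis `1, w` of the ring of integers -/
structure QD (K : Type*) [Field K] [NumberField K] where
  w : 𝓞 K
  t : ℤ
  n : ℤ
  hw : w * w = t * w - n
  e : Basis (Fin 2) ℤ (𝓞 K)
  e0 : e 0 = 1
  e1 : e 1 = w

variable {K : Type*} [Field K] [NumberField K]

theorem exists_QD (h : finrank ℚ K = 2) : Nonempty (QD K) := by
  classical
  have hc : Fintype.card (Module.Free.ChooseBasisIndex ℤ (𝓞 K)) = 2 := by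
    rw [← Module.finrank_eq_card_chooseBasisIndex, RingOfIntegers.rank, h]
  let B : Basis (Fin 2) ℤ (𝓞 K) :=
    (RingOfIntegers.basis K).reindex (Fintype.equivFinOfCardEq hc)
  obtain ⟨c0, hc0⟩ : ∃ c0 : ℤ, c0 = B.repr 1 0 := ⟨_, rfl⟩
  obtain ⟨c1, hc1⟩ : ∃ c1 : ℤ, c1 = B.repr 1 1 := ⟨_, rfl⟩
  have hone : (1 : 𝓞 K) = c0 • B 0 + c1 • B 1 := by
    conv_lhs => rw [← B.sum_repr 1]
    rw [Fin.sum_univ_two, hc0, hc1]
  have hcop : IsCoprime c0 c1 := by
    rw [Int.isCoprime_iff_gcd_eq_one]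
    by_contra hg
    obtain ⟨p, hp, hpd⟩ := Nat.exists_prime_and_dvd hg
    have h0 : (p : ℤ) ∣ c0 := (Int.natCast_dvd_natCast.mpr hpd).trans (Int.gcd_dvd_left _ _)
    have h1 : (p : ℤ) ∣ c1 := (Int.natCast_dvd_natCast.mpr hpd).trans (Int.gcd_dvd_right _ _)
    obtain ⟨a, ha⟩ := h0
    obtain ⟨b, hb⟩ := h1
    have h2 : (1 : 𝓞 K) = (p : ℤ) • (a • B 0 + b • B 1) := by
      rw [hone, ha, hb]
      simp only [smul_add, mul_smul]
    have h3 : IsUnit ((p : ℤ) : 𝓞 K) := by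
      refine IsUnit.of_mul_eq_one (a • B 0 + b • B 1) ?_
      rw [← zsmul_eq_mul]
      exact h2.symm
    have h4 : Algebra.norm ℤ ((p : ℤ) : 𝓞 K) = (p : ℤ) ^ 2 := by
      have := Algebra.norm_algebraMap (R := ℤ) (S := 𝓞 K) ((p : ℤ))
      rw [RingOfIntegers.rank, h] at this
      simpa using this
    have h5 : IsUnit ((p : ℤ) ^ 2) := h4 ▸ h3.map (Algebra.norm ℤ)
    have h6 := Int.isUnit_iff_natAbs_eq.mp h5
    rw [Int.natAbs_pow, Int.natAbs_natCast] at h6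
    have := hp.two_le
    nlinarith
  obtain ⟨v, u', huv⟩ := hcop
  obtain ⟨u, hu⟩ : ∃ u : ℤ, u = -u' := ⟨_, rfl⟩
  have hdet : c0 * v - c1 * u = 1 := by rw [hu]; linarith
  let w : 𝓞 K := u • B 0 + v • B 1
  have hB0 : B 0 = v • (1 : 𝓞 K) - c1 • w := by
    rw [hone]
    simp only [w, smul_add, smul_smul]
    have h1 : (v * c0 - c1 * u) = 1 := by linarith
    have h2 : (v * c1 - c1 * v) = 0 := by ring
    calc B 0 = (v * c0 - c1 * u) • B 0 + (v * c1 - c1 * v) • B 1 := by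
          rw [h1, h2]; simp
      _ = _ := by rw [sub_smul, sub_smul]; abel
  have hB1 : B 1 = (-u) • (1 : 𝓞 K) + c0 • w := by
    rw [hone]
    simp only [w, smul_add, smul_smul]
    have h1 : (-u * c1 + c0 * v) = 1 := by linarith
    have h2 : (-u * c0 + c0 * u) = 0 := by ring
    calc B 1 = (-u * c0 + c0 * u) • B 0 + (-u * c1 + c0 * v) • B 1 := by
          rw [h1, h2]; simp
      _ = _ := by rw [add_smul, add_smul]; abel
  have hli : LinearIndependent ℤ ![(1 : 𝓞 K), w] := by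
    rw [LinearIndependent.pair_iff]
    intro a b hab
    rw [hone] at hab
    have hab' : (a * c0 + b * u) • B 0 + (a * c1 + b * v) • B 1 = 0 := by
      rw [← hab]
      simp only [w, smul_add, smul_smul, add_smul]
      abel
    have hli := Fintype.linearIndependent_iff.mp B.linearIndependent
      ![a * c0 + b * u, a * c1 + b * v] (by simpa [Fin.sum_univ_two] using hab')
    have h0 := hli 0
    have h1 := hli 1
    simp only [Matrix.cons_val_zero, Matrix.cons_val_one] at h0 h1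
    constructor
    · have : a * (c0 * v - c1 * u) = 0 := by linear_combination v * h0 - u * h1
      rwa [hdet, mul_one] at this
    · have : b * (c0 * v - c1 * u) = 0 := by linear_combination c0 * h1 - c1 * h0
      rwa [hdet, mul_one] at this
  have hsp : ⊤ ≤ Submodule.span ℤ (Set.range ![(1 : 𝓞 K), w]) := by
    have m0 : (1 : 𝓞 K) ∈ Submodule.span ℤ (Set.range ![(1 : 𝓞 K), w]) :=
      Submodule.subset_span ⟨0, rfl⟩
    have m1 : w ∈ Submodule.span ℤ (Set.range ![(1 : 𝓞 K), w]) :=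
      Submodule.subset_span ⟨1, rfl⟩
    rw [← B.span_eq, Submodule.span_le]
    rintro _ ⟨i, rfl⟩
    fin_cases i
    · simp only [Fin.zero_eta]
      rw [hB0]
      exact Submodule.sub_mem _ (Submodule.smul_mem _ _ m0) (Submodule.smul_mem _ _ m1)
    · simp only [Fin.mk_one]
      rw [hB1]
      exact Submodule.add_mem _ (Submodule.smul_mem _ _ m0) (Submodule.smul_mem _ _ m1)
  let e : Basis (Fin 2) ℤ (𝓞 K) := Basis.mk hli hsp
  have he0 : e 0 = 1 := by simp [e]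
  have he1 : e 1 = w := by simp [e]
  have hww : w * w = (e.repr (w * w) 0) • (1 : 𝓞 K) + (e.repr (w * w) 1) • w := by
    conv_lhs => rw [← e.sum_repr (w * w)]
    rw [Fin.sum_univ_two, he0, he1]
  refine ⟨⟨w, e.repr (w * w) 1, -(e.repr (w * w) 0), ?_, e, he0, he1⟩⟩
  conv_lhs => rw [hww]
  rw [zsmul_eq_mul, zsmul_eq_mul]
  push_cast
  ring

namespace QD

variable (q : QD K)

/-- coordinates -/
noncomputable def cx (z : 𝓞 K) : ℤ := q.e.repr z 0
noncomputable def cy (z : 𝓞 K) : ℤ := q.e.repr z 1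

theorem eq_c (z : 𝓞 K) : z = (q.cx z : 𝓞 K) + q.cy z * q.w := by
  conv_lhs => rw [← q.e.sum_repr z]
  rw [Fin.sum_univ_two, q.e0, q.e1, zsmul_eq_mul, zsmul_eq_mul, mul_one]
  rfl

theorem c_unique {z : 𝓞 K} {x y : ℤ} (h : z = (x : 𝓞 K) + y * q.w) :
    q.cx z = x ∧ q.cy z = y := by
  have h1 : z = x • q.e 0 + y • q.e 1 := by
    rw [q.e0, q.e1, zsmul_eq_mul, zsmul_eq_mul, mul_one, h]
  constructor
  · rw [cx, h1, map_add, map_zsmul, map_zsmul, Basis.repr_self, Basis.repr_self]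
    simp
  · rw [cy, h1, map_add, map_zsmul, map_zsmul, Basis.repr_self, Basis.repr_self]
    simp

@[simp] theorem cx_mk (x y : ℤ) : q.cx ((x : 𝓞 K) + y * q.w) = x := (q.c_unique rfl).1
@[simp] theorem cy_mk (x y : ℤ) : q.cy ((x : 𝓞 K) + y * q.w) = y := (q.c_unique rfl).2

theorem norm_mk (x y : ℤ) :
    Algebra.norm ℤ ((x : 𝓞 K) + y * q.w) = x ^ 2 + q.t * x * y + q.n * y ^ 2 := by
  rw [Algebra.norm_eq_matrix_det q.e]
  have key : ∀ i j, Algebra.leftMulMatrix q.e ((x : 𝓞 K) + y * q.w) i j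
      = q.e.repr (((x : 𝓞 K) + y * q.w) * q.e j) i := fun i j => by
    rw [Algebra.leftMulMatrix_eq_repr_mul]
  have h0 : ((x : 𝓞 K) + y * q.w) * q.e 0 = (x : 𝓞 K) + y * q.w := by rw [q.e0, mul_one]
  have h1 : ((x : 𝓞 K) + y * q.w) * q.e 1
      = ((-(q.n * y) : ℤ) : 𝓞 K) + ((x + q.t * y : ℤ) : 𝓞 K) * q.w := by
    rw [q.e1]; push_cast; linear_combination (y : 𝓞 K) * q.hw
  rw [Matrix.det_fin_two, key, key, key, key, h0, h1]
  have a := q.cx_mk x y
  have b := q.cy_mk x y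
  have c := q.cx_mk (-(q.n * y)) (x + q.t * y)
  have d := q.cy_mk (-(q.n * y)) (x + q.t * y)
  unfold cx at a c
  unfold cy at b d
  rw [a, b, c, d]
  ring

theorem norm_eq (z : 𝓞 K) :
    Algebra.norm ℤ z = q.cx z ^ 2 + q.t * q.cx z * q.cy z + q.n * q.cy z ^ 2 := by
  conv_lhs => rw [q.eq_c z]
  exact q.norm_mk _ _

/-- conjugation -/
noncomputable def s : 𝓞 K →+* 𝓞 K where
  toFun z := ((q.cx z + q.t * q.cy z : ℤ) : 𝓞 K) + ((-(q.cy z) : ℤ) : 𝓞 K) * q.w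
  map_one' := by
    obtain ⟨h1, h2⟩ := q.c_unique (z := 1) (x := 1) (y := 0) (by simp)
    rw [h1, h2]; simp
  map_zero' := by
    obtain ⟨h1, h2⟩ := q.c_unique (z := 0) (x := 0) (y := 0) (by simp)
    rw [h1, h2]; simp
  map_add' a b := by
    obtain ⟨h1, h2⟩ := q.c_unique (z := a + b) (x := q.cx a + q.cx b) (y := q.cy a + q.cy b) (by
      conv_lhs => rw [q.eq_c a, q.eq_c b]
      push_cast; ring)
    rw [h1, h2]; push_cast; ring
  map_mul' a b := by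
    obtain ⟨h1, h2⟩ := q.c_unique (z := a * b) (x := q.cx a * q.cx b - q.n * q.cy a * q.cy b)
      (y := q.cx a * q.cy b + q.cy a * q.cx b + q.t * q.cy a * q.cy b) (by
      conv_lhs => rw [q.eq_c a, q.eq_c b]
      push_cast; linear_combination (q.cy a : 𝓞 K) * q.cy b * q.hw)
    rw [h1, h2]; push_cast
    linear_combination (-(q.cy a : 𝓞 K) * q.cy b) * q.hw

theorem s_mk (x y : ℤ) : q.s ((x : 𝓞 K) + y * q.w) = ((x + q.t * y : ℤ) : 𝓞 K) - y * q.w := by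
  change (((q.cx ((x : 𝓞 K) + y * q.w)) + q.t * q.cy ((x : 𝓞 K) + y * q.w) : ℤ) : 𝓞 K) +
    ((-(q.cy ((x : 𝓞 K) + y * q.w)) : ℤ) : 𝓞 K) * q.w = _
  rw [cx_mk, cy_mk]; push_cast; ring

theorem mul_s (z : 𝓞 K) : z * q.s z = (Algebra.norm ℤ z : 𝓞 K) := by
  rw [q.norm_eq z]
  conv_lhs => rw [q.eq_c z, q.s_mk]
  push_cast
  linear_combination (-(q.cy z : 𝓞 K) ^ 2) * q.hw

theorem s_s (z : 𝓞 K) : q.s (q.s z) = z := by
  conv_rhs => rw [q.eq_c z]
  conv_lhs => rw [q.eq_c z, q.s_mk]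
  have : ((q.cx z + q.t * q.cy z : ℤ) : 𝓞 K) - q.cy z * q.w
      = ((q.cx z + q.t * q.cy z : ℤ) : 𝓞 K) + ((-(q.cy z) : ℤ) : 𝓞 K) * q.w := by
    push_cast; ring
  rw [this, q.s_mk]; push_cast; ring

theorem discr_eq : NumberField.discr K = q.t ^ 2 - 4 * q.n := by
  rw [← NumberField.discr_eq_discr K q.e, Algebra.discr_def]
  have htr : ∀ x y : ℤ, Algebra.trace ℤ (𝓞 K) ((x : 𝓞 K) + y * q.w) = 2 * x + q.t * y := by
    intro x y
    rw [Algebra.trace_eq_matrix_trace q.e, Matrix.trace_fin_two]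
    have key : ∀ i j, Algebra.leftMulMatrix q.e ((x : 𝓞 K) + y * q.w) i j
        = q.e.repr (((x : 𝓞 K) + y * q.w) * q.e j) i := fun i j => by
      rw [Algebra.leftMulMatrix_eq_repr_mul]
    have h0 : ((x : 𝓞 K) + y * q.w) * q.e 0 = (x : 𝓞 K) + y * q.w := by rw [q.e0, mul_one]
    have h1 : ((x : 𝓞 K) + y * q.w) * q.e 1
        = ((-(q.n * y) : ℤ) : 𝓞 K) + ((x + q.t * y : ℤ) : 𝓞 K) * q.w := by
      rw [q.e1]; push_cast; linear_combination (y : 𝓞 K) * q.hw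
    rw [key, key, h0, h1]
    have a := q.cx_mk x y
    have d := q.cy_mk (-(q.n * y)) (x + q.t * y)
    unfold cx at a
    unfold cy at d
    rw [a, d]
    ring
  have h00 : q.e 0 * q.e 0 = ((1 : ℤ) : 𝓞 K) + ((0 : ℤ) : 𝓞 K) * q.w := by
    rw [q.e0]; simp
  have h01 : q.e 0 * q.e 1 = ((0 : ℤ) : 𝓞 K) + ((1 : ℤ) : 𝓞 K) * q.w := by
    rw [q.e0, q.e1]; simp
  have h10 : q.e 1 * q.e 0 = ((0 : ℤ) : 𝓞 K) + ((1 : ℤ) : 𝓞 K) * q.w := by
    rw [q.e0, q.e1]; simp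
  have h11 : q.e 1 * q.e 1 = ((-q.n : ℤ) : 𝓞 K) + ((q.t : ℤ) : 𝓞 K) * q.w := by
    rw [q.e1, q.hw]; push_cast; ring
  rw [Matrix.det_fin_two]
  simp only [Algebra.traceMatrix_apply, Algebra.traceForm_apply]
  rw [h00, h01, h10, h11, htr, htr, htr]
  ring

end QD

end Vale.Agent.P022.H436
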