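import Vale.Agent.P022.H436.Form

namespace Vale.Agent.P022.H436

open NumberField Module Ideal

variable {K : Type} [Field K] [NumberField K]

theorem absNorm_of_mul {I b : Ideal (𝓞 K)} (hb : b ≠ ⊥) {x : 𝓞 K} {n : ℕ}
    (h : I * b = span {x}) (hx : Algebra.norm ℤ x = n * absNorm b) : absNorm I = n := by
  have h1 := congrArg absNorm h
  rw [map_mul, absNorm_span_singleton, hx, Int.natAbs_mul, Int.natAbs_natCast,
    Int.natAbs_natCast] at h1
  exact Nat.eq_of_mul_eq_mul_right (Nat.pos_of_ne_zero fun h0 => hb (absNorm_eq_zero_iff.mp h0)) h1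

theorem norm_of_mul {I b : Ideal (𝓞 K)} {x : 𝓞 K} (h : I * b = span {x})
    (hx : 0 < Algebra.norm ℤ x) : Algebra.norm ℤ x = absNorm I * absNorm b := by
  have h1 := congrArg absNorm h
  rw [map_mul, absNorm_span_singleton] at h1
  have h3 : ((absNorm I * absNorm b : ℕ) : ℤ) = Algebra.norm ℤ x := by
    rw [h1, Int.natCast_natAbs, abs_of_pos hx]
  rw [← h3]; push_cast; rfl

/-- the finite sum over a fundamental set of generators of ideals -/
theorem unfold_sum {b : Ideal (𝓞 K)} (hb : b ≠ ⊥) (R : Set (𝓞 K)) {c : ℕ} (hc0 : 0 < c)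
    (hR : ∀ x ∈ R, x ∈ b ∧ 0 < Algebra.norm ℤ x)
    (hc : ∀ x ∈ b, 0 < Algebra.norm ℤ x → {u : (𝓞 K)ˣ | (u : 𝓞 K) * x ∈ R}.ncard = c)
    (ψ : 𝓞 K → ℂ) (χ : Ideal (𝓞 K) → ℂ)
    (h : ∀ x ∈ R, ∀ I, I * b = span {x} → ψ x = χ I) (n : ℕ) :
    {x | x ∈ R ∧ Algebra.norm ℤ x = n * absNorm b}.Finite ∧
    ∑ᶠ x ∈ {x | x ∈ R ∧ Algebra.norm ℤ x = n * absNorm b}, ψ x
      = c * ∑ᶠ I ∈ {I : Ideal (𝓞 K) | absNorm I = n ∧ NP I b}, χ I := by
  classical
  obtain ⟨S, hS⟩ : ∃ S : Set (Ideal (𝓞 K)), S = {I | absNorm I = n ∧ NP I b} := ⟨_, rfl⟩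
  have hSfin : S.Finite := by
    rw [hS]
    exact (finite_setOfPred_absNorm_eq (S := 𝓞 K) n).subset (fun I hI => hI.1)
  obtain ⟨t, ht⟩ : ∃ t : Ideal (𝓞 K) → Set (𝓞 K), t = fun I => {x | x ∈ R ∧ I * b = span {x}} :=
    ⟨_, rfl⟩
  have htI : ∀ I ∈ S, (t I).ncard = c := by
    intro I hI
    rw [hS] at hI
    obtain ⟨hIn, x0, hx0, hI0⟩ := hI
    have hx0b : x0 ∈ b := by
      rw [← Ideal.span_singleton_le_iff_mem, ← hI0]; exact Ideal.mul_le_right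
    have hx00 := ne_zero_of_norm_pos hx0
    have himg : t I = (fun u : (𝓞 K)ˣ => (u : 𝓞 K) * x0) '' {u : (𝓞 K)ˣ | (u : 𝓞 K) * x0 ∈ R} := by
      rw [ht]
      ext x
      simp only [Set.mem_ofPred_eq, Set.mem_image]
      constructor
      · rintro ⟨hxR, hx⟩
        rw [hI0, Ideal.span_singleton_eq_span_singleton] at hx
        obtain ⟨u, hu⟩ := hx
        refine ⟨u, ?_, ?_⟩
        · rw [mul_comm, hu]; exact hxR
        · rw [mul_comm, hu]
      · rintro ⟨u, huR, rfl⟩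
        refine ⟨huR, ?_⟩
        rw [hI0, Ideal.span_singleton_eq_span_singleton]
        exact ⟨u, mul_comm _ _⟩
    rw [himg, Set.ncard_image_of_injective]
    · exact hc x0 hx0b hx0
    · intro u v huv
      exact Units.ext (mul_right_cancel₀ hx00 huv)
  have htfin : ∀ I ∈ S, (t I).Finite := by
    intro I hI
    apply Set.finite_of_ncard_pos
    rw [htI I hI]; exact hc0
  have hunion : {x | x ∈ R ∧ Algebra.norm ℤ x = n * absNorm b} = ⋃ I ∈ S, t I := by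
    ext x
    simp only [Set.mem_ofPred_eq, Set.mem_iUnion, hS, ht]
    constructor
    · rintro ⟨hxR, hx⟩
      obtain ⟨hxb, hxp⟩ := hR x hxR
      obtain ⟨I, hI⟩ := Ideal.dvd_iff_le.mpr ((Ideal.span_singleton_le_iff_mem b).mpr hxb)
      rw [mul_comm] at hI
      exact ⟨I, ⟨absNorm_of_mul hb hI.symm hx, x, hxp, hI.symm⟩, hxR, hI.symm⟩
    · rintro ⟨I, ⟨hIn, -⟩, hxR, hI⟩
      refine ⟨hxR, ?_⟩
      rw [norm_of_mul hI (hR x hxR).2, hIn]
  have hdisj : S.PairwiseDisjoint t := by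
    intro I _ J _ hIJ
    rw [Function.onFun, Set.disjoint_left]
    rw [ht]
    rintro x ⟨-, hxI⟩ ⟨-, hxJ⟩
    exact hIJ (mul_right_cancel₀ hb (hxI.trans hxJ.symm))
  rw [hunion]
  refine ⟨hSfin.biUnion htfin, ?_⟩
  rw [finsum_mem_biUnion hdisj hSfin htfin, ← hS, mul_finsum_mem' (fun I => χ I) (c : ℂ) hSfin]
  refine finsum_mem_congr rfl ?_
  intro I hI
  have h1 : ∑ᶠ x ∈ t I, ψ x = ∑ᶠ x ∈ t I, χ I := by
    refine finsum_mem_congr rfl ?_
    intro x hx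
    rw [ht] at hx
    exact h x hx.1 I hx.2
  rw [h1, finsum_mem_eq_finite_toFinset_sum _ (htfin I hI), Finset.sum_const, nsmul_eq_mul,
    ← Set.ncard_eq_toFinset_card _ (htfin I hI), htI I hI]

/-- the sum over all classes gives the coefficient -/
theorem sum_classes {B : Finset (Ideal (𝓞 K))}
    (hB : ∀ I : Ideal (𝓞 K), I ≠ ⊥ → ∃! b, b ∈ B ∧ NP I b) (ξ : Ideal (𝓞 K) →*₀ ℂ)
    {n : ℕ} (hn : n ≠ 0) :
    ∑ b ∈ B, ∑ᶠ I ∈ {I : Ideal (𝓞 K) | absNorm I = n ∧ NP I b}, ξ I = coef ξ n := by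
  classical
  have hfin : ∀ b, {I : Ideal (𝓞 K) | absNorm I = n ∧ NP I b}.Finite := fun b =>
    (finite_setOfPred_absNorm_eq (S := 𝓞 K) n).subset (fun I hI => hI.1)
  have hfilter : ∀ b, ∑ᶠ I ∈ {I : Ideal (𝓞 K) | absNorm I = n ∧ NP I b}, ξ I
      = ∑ I ∈ SN K n, if NP I b then ξ I else 0 := by
    intro b
    rw [finsum_mem_eq_finite_toFinset_sum _ (hfin b), ← Finset.sum_filter]
    apply Finset.sum_congr
    · ext I
      simp [mem_SN]
    · intro I _; rfl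
  simp_rw [hfilter]
  rw [Finset.sum_comm, coef_eq]
  refine Finset.sum_congr rfl fun I hI => ?_
  rw [mem_SN] at hI
  have hI0 : I ≠ ⊥ := by
    rintro rfl
    rw [absNorm_bot] at hI
    exact hn hI.symm
  obtain ⟨b, ⟨hbB, hbI⟩, hbu⟩ := hB I hI0
  rw [Finset.sum_eq_single b]
  · rw [if_pos hbI]
  · intro b' hb' hne
    rw [if_neg]
    intro hNP
    exact hne (hbu b' ⟨hb', hNP⟩)
  · intro h; exact absurd hbB h

end Vale.Agent.P022.H436
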