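import Vale.Agent.P022.H436.Imag
import Vale.Agent.P022.H23.ThetaMF
import Vale.Agent.P022.H954.P9Final

namespace Vale.Agent.P022.H436

open NumberField

theorem thetaMF : ThetaMF := by
  intro A B C hA hD M hM f hf χ hχ
  let Q : H23.BQ := ⟨A, B, C⟩
  have hdet : Q.det = 4 * A * C - B ^ 2 := rfl
  have hQ : Q.Pos := ⟨hA, hD⟩
  obtain ⟨g, -, h1, h2, h3⟩ := H23.theta_MF hQ hM (f := f) hf
  have e1 : Q.det.natAbs = (B ^ 2 - 4 * A * C).natAbs := by
    rw [hdet, ← Int.natAbs_neg, neg_sub]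
  rw [← e1]
  refine ⟨g, h1, ?_, h3⟩
  intro γ hγ d hd
  have hd0 : 0 < d := by
    rcases Nat.eq_zero_or_pos d with h0 | h0
    · exfalso
      subst h0
      have h4 := γ.det_coe
      rw [Matrix.det_fin_two, hd] at h4
      have h5 := (ZMod.intCast_zmod_eq_zero_iff_dvd _ _).mp (CongruenceSubgroup.Gamma0_mem.mp hγ)
      obtain ⟨e, he⟩ := h5
      rw [he] at h4
      have h6 : (4 : ℤ) ∣ 1 := by
        refine ⟨-(γ 0 1 * (|Q.det| * M ^ 2) * e), ?_⟩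
        push_cast at h4
        linarith
      omega
    · exact h0
  have h7 := h2 γ hγ d hd (χ d) (hχ d hd0)
  rw [h7]
  congr 2
  rw [hdet, neg_sub]

theorem P5 : P5_statement := by
  intro K _ _ h2 w hw M0 hM0 ξ hξ
  rcases hw with ⟨hK, h⟩ | ⟨σ, h⟩
  · obtain ⟨a0, g, h1, h3, h4⟩ := P5_imag thetaMF h2 hK h hM0 ξ hξ
    exact ⟨g, a0, h1, h3, h4⟩
  · exact H954.P9 K h2 σ w h M0 hM0 ξ hξ

end Vale.Agent.P022.H436
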