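import Vale.Agent.P022.H436.Reps

namespace Vale.Agent.P022.H436

open NumberField Module Ideal

variable {K : Type} [Field K] [NumberField K]

/-- A lattice basis of an ideal together with its norm form. -/
structure LF (b : Ideal (𝓞 K)) where
  L : (Fin 2 → ℤ) →+ 𝓞 K
  inj : Function.Injective L
  mem : ∀ z, z ∈ b ↔ ∃ x, L x = z
  A : ℤ
  B : ℤ
  C : ℤ
  nrm : ∀ x : Fin 2 → ℤ, Algebra.norm ℤ (L x)
    = (absNorm b : ℤ) * (A * x 0 ^ 2 + B * x 0 * x 1 + C * x 1 ^ 2)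
  disc : B ^ 2 - 4 * A * C = discr K

theorem exists_LF (h2 : finrank ℚ K = 2) {b : Ideal (𝓞 K)} (hb : b ≠ ⊥) : Nonempty (LF b) := by
  classical
  obtain ⟨q⟩ := exists_QD h2
  let eb : Basis (Fin 2) ℤ b := Ideal.selfBasis q.e b hb
  obtain ⟨u, hu⟩ : ∃ u : Fin 2 → 𝓞 K, ∀ i, u i = (eb i : 𝓞 K) := ⟨fun i => (eb i : 𝓞 K), fun i => rfl⟩
  let L : (Fin 2 → ℤ) →+ 𝓞 K :=
    { toFun := fun x => (x 0 : 𝓞 K) * u 0 + (x 1 : 𝓞 K) * u 1
      map_zero' := by simp
      map_add' := fun x y => by simp only [Pi.add_apply]; push_cast; ring }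
  have hL : ∀ x, L x = (x 0 : 𝓞 K) * u 0 + (x 1 : 𝓞 K) * u 1 := fun x => rfl
  have hLe : ∀ x : Fin 2 → ℤ, L x = ((eb.equivFun.symm x : b) : 𝓞 K) := by
    intro x
    rw [hL, Basis.equivFun_symm_apply, Fin.sum_univ_two, hu, hu]
    simp
  have hinj : Function.Injective L := by
    intro x y hxy
    rw [hLe, hLe] at hxy
    exact eb.equivFun.symm.injective (Subtype.ext hxy)
  have hmem : ∀ z, z ∈ b ↔ ∃ x, L x = z := by
    intro z
    constructor
    · intro hz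
      refine ⟨eb.equivFun ⟨z, hz⟩, ?_⟩
      rw [hLe, LinearEquiv.symm_apply_apply]
    · rintro ⟨x, rfl⟩
      rw [hLe]
      exact (eb.equivFun.symm x : b).2
  have hu0 : u 0 ∈ b := by rw [hu]; exact (eb 0).2
  have hu1 : u 1 ∈ b := by rw [hu]; exact (eb 1).2
  have hn0 := absNorm_dvd_norm_of_mem hu0
  have hn1 := absNorm_dvd_norm_of_mem hu1
  have hn2 := absNorm_dvd_norm_of_mem (Ideal.add_mem b hu0 hu1)
  obtain ⟨A, hA⟩ := hn0
  obtain ⟨C, hC⟩ := hn1
  obtain ⟨S, hS⟩ := hn2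
  obtain ⟨a1, ha1⟩ : ∃ a, a = q.cx (u 0) := ⟨_, rfl⟩
  obtain ⟨a2, ha2⟩ : ∃ a, a = q.cy (u 0) := ⟨_, rfl⟩
  obtain ⟨b1, hb1⟩ : ∃ a, a = q.cx (u 1) := ⟨_, rfl⟩
  obtain ⟨b2, hb2⟩ : ∃ a, a = q.cy (u 1) := ⟨_, rfl⟩
  have e0 : u 0 = (a1 : 𝓞 K) + a2 * q.w := by rw [ha1, ha2]; exact q.eq_c _
  have e1 : u 1 = (b1 : 𝓞 K) + b2 * q.w := by rw [hb1, hb2]; exact q.eq_c _
  have e2 : u 0 + u 1 = ((a1 + b1 : ℤ) : 𝓞 K) + ((a2 + b2 : ℤ) : 𝓞 K) * q.w := by
    rw [e0, e1]; push_cast; ring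
  rw [e0, q.norm_mk] at hA
  rw [e1, q.norm_mk] at hC
  rw [e2, q.norm_mk] at hS
  have hNb : (absNorm b : ℤ) ≠ 0 := by
    exact_mod_cast fun h => hb (absNorm_eq_zero_iff.mp h)
  have hdet : ((a1 * b2 - a2 * b1) ^ 2 : ℤ) = (absNorm b : ℤ) ^ 2 := by
    have h := natAbs_det_basis_change q.e b eb
    have h3 : q.e.det ((↑) ∘ eb) = a1 * b2 - a2 * b1 := by
      rw [Basis.det_apply, Matrix.det_fin_two]
      simp only [Basis.toMatrix_apply, Function.comp_apply]
      rw [← hu 0, ← hu 1, ha1, ha2, hb1, hb2]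
      simp only [QD.cx, QD.cy]
      ring
    rw [h3] at h
    rw [← h, Int.natCast_natAbs, sq_abs]
  refine ⟨⟨L, hinj, hmem, A, S - A - C, C, ?_, ?_⟩⟩
  · intro x
    have e3 : L x = ((x 0 * a1 + x 1 * b1 : ℤ) : 𝓞 K) + ((x 0 * a2 + x 1 * b2 : ℤ) : 𝓞 K) * q.w := by
      rw [hL, e0, e1]; push_cast; ring
    rw [e3, q.norm_mk]
    linear_combination (x 0 ^ 2 - x 0 * x 1) * hA + (x 1 ^ 2 - x 0 * x 1) * hC + (x 0 * x 1) * hS
  · have h4 : (absNorm b : ℤ) ^ 2 * ((S - A - C) ^ 2 - 4 * A * C) =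
        (absNorm b : ℤ) ^ 2 * discr K := by
      rw [q.discr_eq]
      have h5 : (absNorm b : ℤ) ^ 2 * ((S - A - C) ^ 2 - 4 * A * C)
          = ((absNorm b : ℤ) * S - (absNorm b : ℤ) * A - (absNorm b : ℤ) * C) ^ 2
            - 4 * ((absNorm b : ℤ) * A) * ((absNorm b : ℤ) * C) := by ring
      rw [h5, ← hA, ← hC, ← hS, ← hdet]
      ring
    exact mul_left_cancel₀ (pow_ne_zero 2 hNb) h4

namespace LF

variable {b : Ideal (𝓞 K)} (F : LF b)

/-- value of the form -/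
def q (x : Fin 2 → ℤ) : ℤ := F.A * x 0 ^ 2 + F.B * x 0 * x 1 + F.C * x 1 ^ 2

theorem norm_eq (x : Fin 2 → ℤ) : Algebra.norm ℤ (F.L x) = (absNorm b : ℤ) * F.q x := F.nrm x

theorem L_smul (m : ℤ) (x : Fin 2 → ℤ) : F.L (m • x) = (m : 𝓞 K) * F.L x := by
  rw [map_zsmul, zsmul_eq_mul]

theorem L_mem (x : Fin 2 → ℤ) : F.L x ∈ b := (F.mem _).mpr ⟨x, rfl⟩

theorem L_zero_iff (x : Fin 2 → ℤ) : F.L x = 0 ↔ x = 0 := by
  rw [← map_zero F.L, F.inj.eq_iff]

end LF

/-- the finite part of a ray class character as a function on integers -/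
noncomputable def xf (ξ : Ideal (𝓞 K) →*₀ ℂ) (M : ℕ) (w : K → ℂ) (z : 𝓞 K) : ℂ := by
  classical
  exact if z = 0 then (if M = 1 then 1 else 0) else w (z : K) * ξ (span {z})

omit [NumberField K] in
theorem xf_zero (ξ : Ideal (𝓞 K) →*₀ ℂ) (M : ℕ) (w : K → ℂ) :
    xf ξ M w 0 = if M = 1 then 1 else 0 := by simp [xf]

omit [NumberField K] in
theorem xf_of_ne (ξ : Ideal (𝓞 K) →*₀ ℂ) (M : ℕ) (w : K → ℂ) {z : 𝓞 K} (hz : z ≠ 0) :
    xf ξ M w z = w (z : K) * ξ (span {z}) := by simp [xf, hz]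

omit [NumberField K] in
theorem IsSign.mul {w : K → ℂ} (hw : IsSign w) {x y : K} (hx : x ≠ 0) (hy : y ≠ 0) :
    w (x * y) = w x * w y := by
  rcases hw with ⟨-, h⟩ | ⟨σ, h⟩
  · simp [h]
  · have hx' : σ x ≠ 0 := (map_ne_zero σ).mpr hx
    have hy' : σ y ≠ 0 := (map_ne_zero σ).mpr hy
    rw [h, h, h, map_mul]
    rcases lt_or_gt_of_ne hx' with h1 | h1 <;> rcases lt_or_gt_of_ne hy' with h3 | h3
    · rw [if_pos (mul_pos_of_neg_of_neg h1 h3), if_neg h1.le.not_gt, if_neg h3.le.not_gt]; ring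
    · rw [if_neg (mul_neg_of_neg_of_pos h1 h3).le.not_gt, if_neg h1.le.not_gt, if_pos h3]; ring
    · rw [if_neg (mul_neg_of_pos_of_neg h1 h3).le.not_gt, if_pos h1, if_neg h3.le.not_gt]; ring
    · rw [if_pos (mul_pos h1 h3), if_pos h1, if_pos h3]; ring

omit [NumberField K] in
theorem IsSign.sq {w : K → ℂ} (hw : IsSign w) (x : K) : w x * w x = 1 := by
  rcases hw with ⟨-, h⟩ | ⟨σ, h⟩
  · simp [h]
  · rw [h]; split_ifs <;> ring

omit [NumberField K] in
theorem IsSign.ne {w : K → ℂ} (hw : IsSign w) (x : K) : w x ≠ 0 := by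
  intro h; have := IsSign.sq hw x; rw [h] at this; simp at this

omit [NumberField K] in
theorem IsSign.nat {w : K → ℂ} (hw : IsSign w) {d : ℕ} (hd : 0 < d) : w (d : K) = 1 := by
  rcases hw with ⟨-, h⟩ | ⟨σ, h⟩
  · simp [h]
  · rw [h, map_natCast, if_pos]; exact_mod_cast hd

theorem isCoprime_span_iff {z : 𝓞 K} {M : ℕ} :
    IsCoprime (span {z}) (idl K M) ↔ ∃ u : 𝓞 K, z * u - 1 ∈ idl K M := by
  constructor
  · intro h
    obtain ⟨a, ha, c, hc, hac⟩ := Ideal.isCoprime_iff_exists.mp h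
    obtain ⟨u, rfl⟩ := Ideal.mem_span_singleton'.mp ha
    refine ⟨u, ?_⟩
    have : z * u - 1 = -c := by rw [← hac]; ring
    rw [this]
    exact neg_mem hc
  · rintro ⟨u, hu⟩
    rw [Ideal.isCoprime_iff_exists]
    refine ⟨z * u, Ideal.mul_mem_right _ _ (Ideal.mem_span_singleton_self z), 1 - z * u, ?_, by ring⟩
    rw [← neg_sub]
    exact neg_mem hu

theorem coprime_congr {z z' : 𝓞 K} {M : ℕ} (h : z - z' ∈ idl K M)
    (hc : IsCoprime (span {z}) (idl K M)) : IsCoprime (span {z'}) (idl K M) := by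
  obtain ⟨u, hu⟩ := isCoprime_span_iff.mp hc
  refine isCoprime_span_iff.mpr ⟨u, ?_⟩
  have : z' * u - 1 = (z * u - 1) - (z - z') * u := by ring
  rw [this]
  exact sub_mem hu (Ideal.mul_mem_right _ _ h)

theorem xf_congr {ξ : Ideal (𝓞 K) →*₀ ℂ} {M : ℕ} {w : K → ℂ} (hw : IsSign w)
    (hξ : IsRay ξ M w) {z z' : 𝓞 K} (h : z - z' ∈ idl K M) : xf ξ M w z = xf ξ M w z' := by
  by_cases hM1 : M = 1
  · have key : ∀ y : 𝓞 K, xf ξ M w y = 1 := by
      intro y
      by_cases hy : y = 0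
      · rw [hy, xf_zero, if_pos hM1]
      · rw [xf_of_ne _ _ _ hy, hξ.princ y hy, IsSign.sq hw]
        have : idl K M = ⊤ := by rw [hM1]; simp
        rw [this]; trivial
    rw [key, key]
  · have hM2 : idl K M ≠ ⊤ := by
      intro h1
      obtain hu := Ideal.span_singleton_eq_top.mp h1
      have h3 : Algebra.norm ℤ ((M : ℤ) : 𝓞 K) = (M : ℤ) ^ finrank ℤ (𝓞 K) := by
        have := Algebra.norm_algebraMap (R := ℤ) (S := 𝓞 K) ((M : ℤ))
        simpa using this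
      have h4 : IsUnit ((M : ℤ) ^ finrank ℤ (𝓞 K)) := h3 ▸ hu.map (Algebra.norm ℤ)
      have h5 : finrank ℤ (𝓞 K) ≠ 0 := by
        rw [RingOfIntegers.rank]; exact finrank_pos.ne'
      rw [isUnit_pow_iff h5, Int.isUnit_iff_natAbs_eq, Int.natAbs_natCast] at h4
      exact hM1 h4
    have hnz : ∀ y : 𝓞 K, y ∈ idl K M → xf ξ M w y = 0 := by
      intro y hy
      by_cases hy0 : y = 0
      · rw [hy0, xf_zero, if_neg hM1]
      · rw [xf_of_ne _ _ _ hy0]
        have : ξ (span {y}) = 0 := by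
          by_contra hne
          have := (hξ.supp _).mp hne
          rw [Ideal.isCoprime_iff_sup_eq, sup_eq_right.mpr
            ((Ideal.span_singleton_le_iff_mem _).mpr hy)] at this
          exact hM2 this
        rw [this, mul_zero]
    by_cases hz : z = 0
    · rw [hnz z (by rw [hz]; exact zero_mem _), hnz z' (by
        rw [hz, zero_sub] at h
        exact (neg_mem_iff).mp h)]
    by_cases hz' : z' = 0
    · rw [hnz z' (by rw [hz']; exact zero_mem _), hnz z (by rwa [hz', sub_zero] at h)]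
    rw [xf_of_ne _ _ _ hz, xf_of_ne _ _ _ hz']
    by_cases hc : IsCoprime (span {z}) (idl K M)
    · obtain ⟨u, hu⟩ := isCoprime_span_iff.mp hc
      have hu' : z' * u - 1 ∈ idl K M := by
        have : z' * u - 1 = (z * u - 1) - (z - z') * u := by ring
        rw [this]
        exact sub_mem hu (Ideal.mul_mem_right _ _ h)
      have hu0 : u ≠ 0 := by
        rintro rfl
        rw [mul_zero, zero_sub, neg_mem_iff, ← Ideal.eq_top_iff_one] at hu
        exact hM2 hu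
      have p1 := hξ.princ (z * u) (mul_ne_zero hz hu0) hu
      have p2 := hξ.princ (z' * u) (mul_ne_zero hz' hu0) hu'
      rw [← span_singleton_mul_span_singleton, map_mul] at p1 p2
      have zK : (z : K) ≠ 0 := by exact_mod_cast hz
      have zK' : (z' : K) ≠ 0 := by exact_mod_cast hz'
      have uK : (u : K) ≠ 0 := by exact_mod_cast hu0
      rw [show ((z * u : 𝓞 K) : K) = (z : K) * (u : K) from map_mul _ _ _,
        IsSign.mul hw zK uK] at p1
      rw [show ((z' * u : 𝓞 K) : K) = (z' : K) * (u : K) from map_mul _ _ _,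
        IsSign.mul hw zK' uK] at p2
      have hξu : ξ (span {u}) ≠ 0 := by
        intro h0
        rw [h0, mul_zero] at p1
        exact mul_ne_zero (IsSign.ne hw _) (IsSign.ne hw _) p1.symm
      have s1 := IsSign.sq hw (z : K)
      have s2 := IsSign.sq hw (z' : K)
      apply mul_right_cancel₀ hξu
      have q1 : w z * ξ (span {z}) * ξ (span {u}) = w u := by
        linear_combination w (z : K) * p1 + w (u : K) * s1
      have q2 : w z' * ξ (span {z'}) * ξ (span {u}) = w u := by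
        linear_combination w (z' : K) * p2 + w (u : K) * s2
      rw [q1, q2]
    · have hc' : ¬ IsCoprime (span {z'}) (idl K M) := by
        intro hc'
        refine hc (coprime_congr ?_ hc')
        rw [← neg_sub]
        exact neg_mem h
      have h1 : ξ (span {z}) = 0 := by
        by_contra hne; exact hc ((hξ.supp _).mp hne)
      have h3 : ξ (span {z'}) = 0 := by
        by_contra hne; exact hc' ((hξ.supp _).mp hne)
      rw [h1, h3, mul_zero, mul_zero]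

theorem xf_nat_mul {ξ : Ideal (𝓞 K) →*₀ ℂ} {M : ℕ} {w : K → ℂ} (hw : IsSign w)
    (hξ : IsRay ξ M w) {d : ℕ} (hd : 0 < d) (z : 𝓞 K) :
    xf ξ M w ((d : 𝓞 K) * z) = ξ (idl K d) * xf ξ M w z := by
  have hd0 : (d : 𝓞 K) ≠ 0 := by exact_mod_cast hd.ne'
  have hdK : (d : K) ≠ 0 := by exact_mod_cast hd.ne'
  have hid : idl K d = span {(d : 𝓞 K)} := by simp [idl]
  by_cases hz : z = 0
  · rw [hz, mul_zero, xf_zero]
    by_cases hM : M = 1
    · rw [if_pos hM, hid, hξ.princ _ hd0 (by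
        have : idl K M = ⊤ := by rw [hM]; simp
        rw [this]; trivial)]
      have : ((d : 𝓞 K) : K) = (d : K) := by simp
      rw [this, IsSign.nat hw hd, mul_one]
    · rw [if_neg hM, mul_zero]
  · rw [xf_of_ne _ _ _ hz, xf_of_ne _ _ _ (mul_ne_zero hd0 hz), ← span_singleton_mul_span_singleton,
      map_mul, hid]
    have zK : (z : K) ≠ 0 := by exact_mod_cast hz
    rw [show (((d : 𝓞 K) * z : 𝓞 K) : K) = (d : K) * (z : K) by push_cast; rfl,
      IsSign.mul hw hdK zK, IsSign.nat hw hd]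
    ring

end Vale.Agent.P022.H436
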