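import Vale.Agent.P022.H436.Split

namespace Vale.Agent.P022.H436

open NumberField Module Ideal

variable {K : Type} [Field K] [NumberField K]

/-- the finite set of ideals of norm `n` -/
noncomputable def SN (K : Type) [Field K] [NumberField K] (n : ℕ) : Finset (Ideal (𝓞 K)) :=
  (finite_setOfPred_absNorm_eq (S := 𝓞 K) n).toFinset

theorem mem_SN {n : ℕ} {I : Ideal (𝓞 K)} : I ∈ SN K n ↔ absNorm I = n := by
  simp [SN]

theorem coef_eq (Ψ : Ideal (𝓞 K) →*₀ ℂ) (n : ℕ) : coef Ψ n = ∑ I ∈ SN K n, Ψ I := by
  unfold coef SN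
  exact finsum_mem_eq_finite_toFinset_sum _ _

theorem sum_mul_image [DecidableEq (Ideal (𝓞 K))] (Ψ : Ideal (𝓞 K) →*₀ ℂ) (S : Finset (Ideal (𝓞 K)))
    {P : Ideal (𝓞 K)} (hP : P ≠ ⊥) :
    ∑ I ∈ S.image (fun J => P * J), Ψ I = Ψ P * ∑ J ∈ S, Ψ J := by
  rw [Finset.sum_image (fun a _ b _ h => mul_left_cancel₀ hP h), Finset.mul_sum]
  exact Finset.sum_congr rfl fun J _ => map_mul Ψ P J

theorem dvd_span_of_under {P : Ideal (𝓞 K)} {l : ℕ} (h : P.under ℤ = span {(l : ℤ)}) :
    P ∣ span {(l : 𝓞 K)} := by
  rw [Ideal.dvd_span_singleton]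
  have h1 : (l : ℤ) ∈ P.under ℤ := by rw [h]; exact Ideal.mem_span_singleton_self _
  rw [Ideal.mem_comap] at h1
  simpa using h1

theorem P4 : P4_statement := by
  intro K _ _ hK Ψ l hl h2 n
  classical
  obtain ⟨q⟩ := exists_QD hK
  have hl0 : (span {(l : 𝓞 K)}) ≠ ⊥ := by
    rw [Ne, Ideal.span_singleton_eq_bot]; exact_mod_cast hl.ne_zero
  have hidl : idl K (l : ℤ) = span {(l : 𝓞 K)} := by simp [idl]
  have habs : ∀ P : Ideal (𝓞 K), absNorm P = l → P ≠ ⊥ := by
    rintro P hP rfl
    rw [absNorm_bot] at hP
    exact hl.ne_zero hP.symm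
  unfold neben
  rw [hidl, coef_eq, coef_eq, coef_eq, coef_eq]
  rcases q.split_cases hl h2 with ⟨hj, P, P', hne, hP, hP', hPP⟩ | ⟨hj, P, hP, hPP⟩ | ⟨hj, hno⟩
  · have pP := prime_of_absNorm_prime hl hP
    have pP' := prime_of_absNorm_prime hl hP'
    have hnd : ¬ P ∣ P' := by
      intro hd
      exact hne (eq_of_le_of_absNorm_eq (Ideal.le_of_dvd hd) (habs _ hP') (by rw [hP, hP'])).symm
    have hSl : SN K l = {P, P'} := by
      ext I
      rw [mem_SN, Finset.mem_insert, Finset.mem_singleton]
      constructor
      · intro hI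
        have h3 : I ∣ P * P' := by
          rw [← hPP, Ideal.dvd_span_singleton]; exact natCast_mem_of_absNorm hI
        rcases (prime_of_absNorm_prime hl hI).dvd_or_dvd h3 with h | h
        · left
          exact (eq_of_le_of_absNorm_eq (Ideal.le_of_dvd h) (habs _ hP) (by rw [hP, hI])).symm
        · right
          exact (eq_of_le_of_absNorm_eq (Ideal.le_of_dvd h) (habs _ hP') (by rw [hP', hI])).symm
      · rintro (rfl | rfl) <;> assumption
    have hun : SN K (n * l) = (SN K n).image (fun J => P * J) ∪ (SN K n).image (fun J => P' * J) := by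
      ext I
      simp only [Finset.mem_union, Finset.mem_image, mem_SN]
      constructor
      · intro hI
        obtain ⟨Q, hQ, hQl, hQI⟩ := exists_isMaximal_dvd_of_dvd_absNorm' hl I (by
          rw [hI]; exact dvd_mul_left _ _)
        have hQP := dvd_span_of_under hQl
        have hQ0 : Q ≠ ⊥ := by
          rintro rfl
          exact hl0 (by simpa using hQP)
        have hQp : Prime Q := Ideal.prime_of_isPrime hQ0 hQ.isPrime
        rw [hPP] at hQP
        have hcases : Q = P ∨ Q = P' := by
          rcases hQp.dvd_or_dvd hQP with h | h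
          · left
            exact associated_iff_eq.mp (hQp.associated_of_dvd pP h)
          · right
            exact associated_iff_eq.mp (hQp.associated_of_dvd pP' h)
        obtain ⟨J, hJ⟩ := hQI
        rcases hcases with rfl | rfl
        · left
          refine ⟨J, ?_, hJ.symm⟩
          rw [hJ, map_mul, hP, mul_comm] at hI
          exact Nat.eq_of_mul_eq_mul_right hl.pos hI
        · right
          refine ⟨J, ?_, hJ.symm⟩
          rw [hJ, map_mul, hP', mul_comm] at hI
          exact Nat.eq_of_mul_eq_mul_right hl.pos hI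
      · rintro (⟨J, hJ, rfl⟩ | ⟨J, hJ, rfl⟩)
        · rw [map_mul, hP, hJ, mul_comm]
        · rw [map_mul, hP', hJ, mul_comm]
    have hin : ∑ I ∈ (SN K n).image (fun J => P * J) ∩ (SN K n).image (fun J => P' * J), Ψ I
        = Ψ (span {(l : 𝓞 K)}) * (if l ∣ n then ∑ I ∈ SN K (n / l), Ψ I else 0) := by
      have hmem : ∀ I, I ∈ (SN K n).image (fun J => P * J) ∩ (SN K n).image (fun J => P' * J) →
          ∃ L, I = P * P' * L ∧ l * absNorm L = n := by
        intro I hI
        simp only [Finset.mem_inter, Finset.mem_image, mem_SN] at hI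
        obtain ⟨⟨J, hJ, rfl⟩, J', hJ', he⟩ := hI
        have h4 : P ∣ P' * J' := ⟨J, he⟩
        rcases pP.dvd_or_dvd h4 with h | h
        · exact absurd h hnd
        · obtain ⟨L, rfl⟩ := h
          refine ⟨L, ?_, ?_⟩
          · rw [← he]; ring
          · rw [← hJ', map_mul, hP]
      by_cases hn : l ∣ n
      · rw [if_pos hn]
        have : (SN K n).image (fun J => P * J) ∩ (SN K n).image (fun J => P' * J)
            = (SN K (n / l)).image (fun J => (P * P') * J) := by
          ext I
          constructor
          · intro hI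
            obtain ⟨L, rfl, hL⟩ := hmem I hI
            rw [Finset.mem_image]
            refine ⟨L, ?_, rfl⟩
            rw [mem_SN, ← hL, Nat.mul_div_cancel_left _ hl.pos]
          · intro hI
            rw [Finset.mem_image] at hI
            obtain ⟨L, hL, rfl⟩ := hI
            rw [mem_SN] at hL
            have hn' : l * (n / l) = n := Nat.mul_div_cancel' hn
            rw [Finset.mem_inter, Finset.mem_image, Finset.mem_image]
            refine ⟨⟨P' * L, ?_, by ring⟩, P * L, ?_, by ring⟩
            · rw [mem_SN, map_mul, hP', hL, hn']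
            · rw [mem_SN, map_mul, hP, hL, hn']
        rw [this, sum_mul_image Ψ _ (by rw [← hPP]; exact hl0), hPP]
      · rw [if_neg hn, mul_zero]
        apply Finset.sum_eq_zero
        intro I hI
        obtain ⟨L, -, hL⟩ := hmem I hI
        exact absurd ⟨_, hL.symm⟩ hn
    have hkey := Finset.sum_union_inter (s₁ := (SN K n).image (fun J => P * J))
      (s₂ := (SN K n).image (fun J => P' * J)) (f := fun I => Ψ I)
    rw [← hun, hin, sum_mul_image Ψ _ (habs _ hP), sum_mul_image Ψ _ (habs _ hP')] at hkey
    rw [hj, hSl, Finset.sum_pair hne]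
    push_cast
    rw [one_mul, hkey]
    ring
  · have pP := prime_of_absNorm_prime hl hP
    have hSl : SN K l = {P} := by
      ext I
      rw [mem_SN, Finset.mem_singleton]
      constructor
      · intro hI
        have h3 : I ∣ P * P := by
          rw [← hPP, Ideal.dvd_span_singleton]; exact natCast_mem_of_absNorm hI
        have h : I ∣ P := by
          rcases (prime_of_absNorm_prime hl hI).dvd_or_dvd h3 with h | h <;> exact h
        exact (eq_of_le_of_absNorm_eq (Ideal.le_of_dvd h) (habs _ hP) (by rw [hP, hI])).symm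
      · rintro rfl; assumption
    have hun : SN K (n * l) = (SN K n).image (fun J => P * J) := by
      ext I
      simp only [Finset.mem_image, mem_SN]
      constructor
      · intro hI
        obtain ⟨Q, hQ, hQl, hQI⟩ := exists_isMaximal_dvd_of_dvd_absNorm' hl I (by
          rw [hI]; exact dvd_mul_left _ _)
        have hQP := dvd_span_of_under hQl
        have hQ0 : Q ≠ ⊥ := by
          rintro rfl
          exact hl0 (by simpa using hQP)
        have hQp : Prime Q := Ideal.prime_of_isPrime hQ0 hQ.isPrime
        rw [hPP] at hQP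
        have hcases : Q = P := by
          rcases hQp.dvd_or_dvd hQP with h | h <;>
            exact associated_iff_eq.mp (hQp.associated_of_dvd pP h)
        obtain ⟨J, hJ⟩ := hQI
        subst hcases
        refine ⟨J, ?_, hJ.symm⟩
        rw [hJ, map_mul, hP, mul_comm] at hI
        exact Nat.eq_of_mul_eq_mul_right hl.pos hI
      · rintro ⟨J, hJ, rfl⟩
        rw [map_mul, hP, hJ, mul_comm]
    rw [hj, hSl, hun, Finset.sum_singleton, sum_mul_image Ψ _ (habs _ hP)]
    simp
  · have hSl : SN K l = ∅ := by
      ext I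
      rw [mem_SN]
      simp [hno I]
    have hdiv : ∀ I : Ideal (𝓞 K), absNorm I = n * l → ∃ L, I = span {(l : 𝓞 K)} * L ∧
        l * absNorm L = n := by
      intro I hI
      obtain ⟨Q, hQ, hQl, hQI⟩ := exists_isMaximal_dvd_of_dvd_absNorm' hl I (by
          rw [hI]; exact dvd_mul_left _ _)
      have hQP := dvd_span_of_under hQl
      have hQn : absNorm Q ∣ l ^ 2 := by
        rw [← q.absNorm_span_nat l]
        exact map_dvd absNorm hQP
      obtain ⟨k, hk, hk2⟩ := (Nat.dvd_prime_pow hl).mp hQn
      have hQe : Q = span {(l : 𝓞 K)} := by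
        interval_cases k
        · exact absurd (absNorm_eq_one_iff.mp (by simpa using hk2)) hQ.ne_top
        · exact absurd (by simpa using hk2) (hno Q)
        · exact (eq_of_le_of_absNorm_eq (Ideal.le_of_dvd hQP) hl0
            (by rw [q.absNorm_span_nat, hk2])).symm
      obtain ⟨L, hL⟩ := hQI
      rw [hQe] at hL
      refine ⟨L, hL, ?_⟩
      rw [hL, map_mul, q.absNorm_span_nat, sq, mul_assoc, mul_comm n l] at hI
      exact Nat.eq_of_mul_eq_mul_left hl.pos hI
    rw [hj, hSl, Finset.sum_empty, zero_mul]
    by_cases hn : l ∣ n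
    · rw [if_pos hn]
      have hun : SN K (n * l) = (SN K (n / l)).image (fun J => span {(l : 𝓞 K)} * J) := by
        ext I
        simp only [Finset.mem_image, mem_SN]
        constructor
        · intro hI
          obtain ⟨L, rfl, hL⟩ := hdiv I hI
          exact ⟨L, by rw [← hL, Nat.mul_div_cancel_left _ hl.pos], rfl⟩
        · rintro ⟨L, hL, rfl⟩
          rw [map_mul, q.absNorm_span_nat, hL, sq, mul_assoc, Nat.mul_div_cancel' hn, mul_comm]
      rw [hun, sum_mul_image Ψ _ hl0]
      push_cast
      ring
    · rw [if_neg hn, mul_zero, add_zero]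
      apply Finset.sum_eq_zero
      intro I hI
      obtain ⟨L, -, hL⟩ := hdiv I (mem_SN.mp hI)
      exact absurd ⟨_, hL.symm⟩ hn

end Vale.Agent.P022.H436
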