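import Vale.Agent.P022.H120.P7
import Vale.Agent.P022.H380.P6
import Vale.Agent.P022.H903.KeyF
import Vale.Agent.P022.H436.HeckeRel
import Vale.Agent.P022.H436.Auto

/-!
# The system of eigenvalues of a 2-adic Hecke character is a 2-adic limit of the Hecke algebras
-/

open scoped ModularForm MatrixGroups Manifold Topology
open UpperHalfPlane CongruenceSubgroup Matrix NumberField

noncomputable section

namespace Vale.Agent.P022.H436

open Vale.Agent.P022 Vale.Agent.P022.H120

/-- restriction of the operators to smaller weights -/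
def resBig (N : ℕ) [NeZero N] {k l : ℕ} (h : k ≤ l) : BigEnd N l →ₐ[ℤ] BigEnd N k where
  toFun x := fun i => x (Fin.castLE h i)
  map_one' := rfl
  map_mul' _ _ := rfl
  map_zero' := rfl
  map_add' _ _ := rfl
  commutes' _ := rfl

theorem resBig_opsHom (N : ℕ) [NeZero N] {k l : ℕ} (h : k ≤ l) (P : FreeAlgebra ℤ (Gen N)) :
    resBig N h (opsHom N l P) = opsHom N k P := by
  have e : (resBig N h).comp (opsHom N l) = opsHom N k := by
    apply FreeAlgebra.hom_ext
    funext x
    simp only [Function.comp_apply, AlgHom.coe_comp, opsHom, FreeAlgebra.lift_ι_apply]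
    unfold opGen
    split_ifs
    · rfl
    · rfl
  exact congrArg (fun φ => φ P) e

theorem ann_mono (N : ℕ) [NeZero N] {k l : ℕ} (h : k ≤ l) (P : FreeAlgebra ℤ (Gen N))
    (hP : opsHom N l P = 0) : opsHom N k P = 0 := by
  rw [← resBig_opsHom N h, hP, map_zero]

variable {K : Type} [Field K] [NumberField K]

/-- The universal values of the generators. -/
def univ (K : Type) [Field K] [NumberField K] (N0 N : ℕ) (g : Gen N) :
    MonoidAlgebra ℤ (PI K (2 * N0)) :=
  if g.2 = true then dI (2 * N0) g.1 else tI (2 * N0) g.1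

theorem gen_coprime {N0 N : ℕ} (hd : N0 ∣ N) (g : {l : ℕ // l.Prime ∧ ¬ l ∣ 2 * N}) :
    Nat.Coprime (g : ℕ) (2 * N0) :=
  (Nat.Prime.coprime_iff_not_dvd g.2.1).2 fun h => g.2.2 (h.trans (mul_dvd_mul_left 2 hd))

theorem lift_univ (hK : Module.finrank ℚ K = 2) {N0 N : ℕ} (hd : N0 ∣ N)
    (χ : Ideal (𝓞 K) →*₀ ℂ) (j : ℕ) (P : FreeAlgebra ℤ (Gen N)) :
    FreeAlgebra.lift ℤ (fun g => ev (tw (2 * N0) χ j) (univ K N0 N g)) P =
      evHom N (fun l => (l : ℂ) ^ j * coef χ l) (fun l => (l : ℂ) ^ (2 * j) * neben χ l) P := by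
  have e : (fun g : Gen N => ev (tw (2 * N0) χ j) (univ K N0 N g)) =
      valGen N (fun l => (l : ℂ) ^ j * coef χ l) (fun l => (l : ℂ) ^ (2 * j) * neben χ l) := by
    funext g
    unfold univ valGen
    split_ifs with h
    · exact ev_dI hK (gen_coprime hd g.1) χ j
    · exact ev_tI (gen_coprime hd g.1) χ j
  rw [e]
  rfl

theorem lvl_pos {N0 : ℕ} (h : Odd N0) : 0 < lvl K N0 := (lvl_odd h).pos

/-- **The system of eigenvalues of a 2-adic Hecke character.** -/
theorem hecke_sys (key : Key_statement) {v : AbsoluteValue ℂ ℝ} (hv : TwoAdic v)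
    (hK : Module.finrank ℚ K = 2) {w : K → ℂ} (hw : IsSign w) {N0 : ℕ} (hN0 : Odd N0)
    [NeZero (lvl K N0)] {Ψ : Ideal (𝓞 K) →*₀ ℂ} (hΨ : IsHecke v Ψ N0 w) :
    SysOK v (lvl K N0) (coef Ψ) (neben Ψ) := by
  have hd : N0 ∣ lvl K N0 := dvd_lvl
  have h1 := sys_hecke H380.P6 hv hK hw hN0 hΨ
    (G := Gen (lvl K N0)) (fun k P => opsHom (lvl K N0) k P = 0)
    (fun k l hkl P hP => ann_mono _ hkl P hP) (univ K N0 (lvl K N0)) ?_
  · intro m
    obtain ⟨k, hk⟩ := h1 m
    refine ⟨k, fun P hP => ?_⟩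
    have h2 := hk P hP
    rw [lift_univ hK hd] at h2
    simpa using h2
  · intro S ξ hξ hneb j m
    obtain ⟨J, hJ⟩ := level_eq (K := K) N0 S
    have hM0 : 0 < 2 ^ S * N0 := Nat.mul_pos (by positivity) hN0.pos
    obtain ⟨g, a0, hq, hg, hb⟩ := P5 K hK w hw (2 ^ S * N0) hM0 ξ hξ
    have h3 := key v hv (lvl K N0) (lvl_odd hN0) J _ hJ g (hb v hv.nonarch) (neben ξ) hg hneb
      (fun n => if n = 0 then a0 else coef ξ n) hq (by simp [coef_one]) ?_ j m
    · obtain ⟨k, hk⟩ := h3
      refine ⟨k, fun P hP => ?_⟩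
      have h4 := hk P hP
      rw [lift_univ hK hd]
      have e : evHom (lvl K N0) (fun l => (l : ℂ) ^ j * coef ξ l)
          (fun l => (l : ℂ) ^ (2 * j) * neben ξ l) =
          evHom (lvl K N0) (fun l => (l : ℂ) ^ j * (if l = 0 then a0 else coef ξ l))
          (fun l => (l : ℂ) ^ (2 * j) * neben ξ l) := by
        unfold evHom
        congr 1
        funext g
        unfold valGen
        by_cases h5 : g.2 = true
        · rw [if_pos h5, if_pos h5]
        · rw [if_neg h5, if_neg h5]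
          exact congrArg (fun z : ℂ => ((g.1 : ℕ) : ℂ) ^ j * z)
            (if_neg g.1.2.1.ne_zero).symm
      rw [e]
      exact h4
    · intro l hl hl2 n hn
      have h5 := P4 K hK ξ l hl hl2 n
      have hnl : n * l ≠ 0 := Nat.mul_ne_zero hn.ne' hl.ne_zero
      rw [if_neg hnl, if_neg hl.ne_zero, if_neg hn.ne']
      by_cases hdl : l ∣ n
      · have h6 : n / l ≠ 0 := (Nat.div_pos (Nat.le_of_dvd hn hdl) hl.pos).ne'
        rw [if_pos hdl] at h5 ⊢
        rw [if_neg h6]
        exact h5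
      · rw [if_neg hdl] at h5 ⊢
        exact h5

end Vale.Agent.P022.H436
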