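import Vale.Agent.P022.H436.HeckeRel

namespace Vale.Agent.P022.H436

open NumberField Module Ideal
open scoped nonZeroDivisors

variable {K : Type} [Field K] [NumberField K]

/-- `I * J` is generated by an element of positive norm -/
def NP (I J : Ideal (𝓞 K)) : Prop := ∃ x : 𝓞 K, 0 < Algebra.norm ℤ x ∧ I * J = span {x}

theorem norm_ne_zero' {x : 𝓞 K} : Algebra.norm ℤ x ≠ 0 ↔ x ≠ 0 := by
  rw [Ne, Algebra.norm_eq_zero_iff]

theorem ne_zero_of_norm_pos {x : 𝓞 K} (h : 0 < Algebra.norm ℤ x) : x ≠ 0 :=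
  norm_ne_zero'.mp h.ne'

/-- the norm-positive equivalence of nonzero ideals -/
def NE (I J : Ideal (𝓞 K)) : Prop := ∃ x y : 𝓞 K, 0 < Algebra.norm ℤ x ∧
  0 < Algebra.norm ℤ y ∧ span {x} * I = span {y} * J

omit [NumberField K] in
theorem NE.refl (I : Ideal (𝓞 K)) : NE I I := ⟨1, 1, by simp, by simp, rfl⟩
omit [NumberField K] in
theorem NE.symm {I J : Ideal (𝓞 K)} (h : NE I J) : NE J I := by
  obtain ⟨x, y, hx, hy, h⟩ := h
  exact ⟨y, x, hy, hx, h.symm⟩
omit [NumberField K] in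
theorem NE.trans {I J L : Ideal (𝓞 K)} (h : NE I J) (h' : NE J L) : NE I L := by
  obtain ⟨x, y, hx, hy, h⟩ := h
  obtain ⟨z, u, hz, hu, h'⟩ := h'
  refine ⟨z * x, y * u, by rw [map_mul]; positivity, by rw [map_mul]; positivity, ?_⟩
  rw [← span_singleton_mul_span_singleton, ← span_singleton_mul_span_singleton, mul_assoc, h,
    mul_left_comm, h', mul_assoc]

theorem NP.congr {I J b : Ideal (𝓞 K)} (h : NE I J) (hJ : NP J b) : NP I b := by
  obtain ⟨x, y, hx, hy, h⟩ := h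
  obtain ⟨u, hu, hJ⟩ := hJ
  have hx0 := ne_zero_of_norm_pos hx
  have h1 : span {x} * (I * b) = span {y * u} := by
    rw [← mul_assoc, h, mul_assoc, hJ, span_singleton_mul_span_singleton]
  have h2 : x ∣ y * u := by
    rw [← Ideal.span_singleton_le_span_singleton, ← h1]
    exact Ideal.mul_le_left
  obtain ⟨v, hv⟩ := h2
  refine ⟨v, ?_, ?_⟩
  · have h3 : 0 < Algebra.norm ℤ x * Algebra.norm ℤ v := by
      rw [← map_mul, ← hv, map_mul]; positivity
    exact (pos_iff_pos_of_mul_pos h3).mp hx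
  · have h4 : span {x} * (I * b) = span {x} * span {v} := by
      rw [h1, hv, span_singleton_mul_span_singleton]
    exact mul_left_cancel₀ (by rwa [Ne, Ideal.zero_eq_bot, Ideal.span_singleton_eq_bot]) h4

theorem NE_of_NP {I J b : Ideal (𝓞 K)} (h : NP I b) (h' : NP J b) : NE I J := by
  obtain ⟨x, hx, h⟩ := h
  obtain ⟨y, hy, h'⟩ := h'
  have hb : b ≠ ⊥ := by
    rintro rfl
    rw [Ideal.mul_bot] at h
    exact ne_zero_of_norm_pos hx (Ideal.span_singleton_eq_bot.mp h.symm)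
  refine ⟨y, x, hy, hx, ?_⟩
  have : b * (span {y} * I) = b * (span {x} * J) := by
    rw [← h', ← h]; ring
  exact mul_left_cancel₀ hb this

/-- every nonzero ideal has a norm-positive inverse prime to `M` -/
theorem exists_NP_coprime (h2 : finrank ℚ K = 2) {J : Ideal (𝓞 K)} (hJ : J ≠ ⊥) {M : ℕ}
    (hM : 0 < M) : ∃ b : Ideal (𝓞 K), b ≠ ⊥ ∧ IsCoprime b (idl K M) ∧ NP J b := by
  obtain ⟨q⟩ := exists_QD h2
  have hM0 : (idl K M) ≠ ⊥ := by
    rw [Ne, Ideal.span_singleton_eq_bot]; exact_mod_cast hM.ne'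
  have hJM : J * idl K M ≠ ⊥ := by
    rw [Ne, Ideal.mul_eq_bot]; tauto
  obtain ⟨a, ha⟩ := IsDedekindDomain.exists_sup_span_eq
    (Ideal.mul_le_left : J * idl K M ≤ J) hJM
  obtain ⟨t, ht⟩ : ∃ t : ℕ, t = absNorm (J * idl K M) := ⟨_, rfl⟩
  have htpos : 0 < t := by
    rw [ht]; exact Nat.pos_of_ne_zero fun h => hJM (absNorm_eq_zero_iff.mp h)
  have htmem : (t : 𝓞 K) ∈ J * idl K M := by rw [ht]; exact absNorm_mem _
  obtain ⟨x, y, hxy⟩ : ∃ x y : ℤ, a = x + y * q.w := ⟨_, _, q.eq_c a⟩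
  obtain ⟨k, hk⟩ : ∃ k : ℕ, (k : ℤ) = |x| + |q.t * y| + |q.n| * y ^ 2 + 1 :=
    ⟨(|x| + |q.t * y| + |q.n| * y ^ 2 + 1).toNat, Int.toNat_of_nonneg (by positivity)⟩
  obtain ⟨a', ha'⟩ : ∃ a' : 𝓞 K, a' = a + (k : 𝓞 K) * t := ⟨_, rfl⟩
  have hnorm : 0 < Algebra.norm ℤ a' := by
    have : a' = ((x + k * t : ℤ) : 𝓞 K) + (y : 𝓞 K) * q.w := by
      rw [ha', hxy]; push_cast; ring
    rw [this, q.norm_mk]
    have ht1 : (1 : ℤ) ≤ t := by exact_mod_cast htpos
    have hk0 : (0 : ℤ) ≤ k := by positivity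
    have hkt : (k : ℤ) ≤ k * t := by nlinarith
    have hX : |q.t * y| + |q.n| * y ^ 2 + 1 ≤ x + k * t := by
      have := neg_abs_le x
      linarith
    obtain ⟨X, hXe⟩ : ∃ X : ℤ, X = x + k * t := ⟨_, rfl⟩
    rw [← hXe] at hX ⊢
    have e1 : X ^ 2 + q.t * X * y + q.n * y ^ 2 = X * (X + q.t * y) + q.n * y ^ 2 := by ring
    rw [e1]
    have h1 := neg_abs_le (q.t * y)
    have h3 : -(|q.n| * y ^ 2) ≤ q.n * y ^ 2 := by
      have := neg_abs_le q.n
      nlinarith [sq_nonneg y]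
    have h4 : 0 ≤ |q.n| * y ^ 2 := by positivity
    have h5 : 1 ≤ X := by
      have := abs_nonneg (q.t * y)
      linarith
    have h6 : |q.n| * y ^ 2 + 1 ≤ X + q.t * y := by linarith
    nlinarith
  have hsup : J * idl K M ⊔ span {a'} = J := by
    have e : J * idl K M ⊔ span {a'} = J * idl K M ⊔ span {a} := by
      have hkt : (k : 𝓞 K) * t ∈ J * idl K M := Ideal.mul_mem_left _ _ htmem
      apply le_antisymm
      · refine sup_le le_sup_left ?_
        rw [Ideal.span_singleton_le_iff_mem, ha']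
        exact Ideal.add_mem _ (Ideal.mem_sup_right (Ideal.mem_span_singleton_self _))
          (Ideal.mem_sup_left hkt)
      · refine sup_le le_sup_left ?_
        rw [Ideal.span_singleton_le_iff_mem]
        have : a = a' - (k : 𝓞 K) * t := by rw [ha']; ring
        rw [this]
        exact Ideal.sub_mem _ (Ideal.mem_sup_right (Ideal.mem_span_singleton_self _))
          (Ideal.mem_sup_left hkt)
    rw [e, ha]
  have hle : span {a'} ≤ J := by
    conv_rhs => rw [← hsup]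
    exact le_sup_right
  obtain ⟨b, hb⟩ := Ideal.dvd_iff_le.mpr hle
  refine ⟨b, ?_, ?_, a', hnorm, hb.symm⟩
  · rintro rfl
    rw [Ideal.mul_bot] at hb
    exact ne_zero_of_norm_pos hnorm (Ideal.span_singleton_eq_bot.mp hb)
  · rw [Ideal.isCoprime_iff_sup_eq]
    rw [hb, ← Ideal.mul_sup] at hsup
    have : J * (idl K M ⊔ b) = J * ⊤ := by rw [hsup, Ideal.mul_top]
    rw [sup_comm]
    exact mul_left_cancel₀ hJ this

/-- a finite set of ideals such that every nonzero ideal is equivalent to one of them -/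
theorem exists_finite_NE (K : Type) [Field K] [NumberField K] :
    ∃ T : Set (Ideal (𝓞 K)), T.Finite ∧ ∀ I : Ideal (𝓞 K), I ≠ ⊥ → ∃ J ∈ T, J ≠ ⊥ ∧ NE I J := by
  classical
  choose f hf using ClassGroup.mk0_surjective (R := 𝓞 K)
  by_cases hz : ∃ z : 𝓞 K, Algebra.norm ℤ z < 0
  · obtain ⟨z, hz⟩ := hz
    refine ⟨Set.range (fun c => (f c : Ideal (𝓞 K))) ∪
      Set.range (fun c => span {z} * (f c : Ideal (𝓞 K))), ?_, ?_⟩
    · exact (Set.finite_range _).union (Set.finite_range _)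
    · intro I hI
      have hI' : I ∈ (Ideal (𝓞 K))⁰ := mem_nonZeroDivisors_iff_ne_zero.mpr hI
      obtain ⟨x, y, hx, hy, h⟩ := ClassGroup.mk0_eq_mk0_iff.mp (hf (ClassGroup.mk0 ⟨I, hI'⟩)).symm
      simp only at h
      have hx' := norm_ne_zero'.mpr hx
      have hy' := norm_ne_zero'.mpr hy
      have hxx : 0 < Algebra.norm ℤ x * Algebra.norm ℤ x := mul_self_pos.mpr hx'
      have hz0 : z ≠ 0 := norm_ne_zero'.mp hz.ne
      rcases lt_or_gt_of_ne (mul_ne_zero hx' hy') with hs | hs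
      · refine ⟨_, Or.inr ⟨ClassGroup.mk0 ⟨I, hI'⟩, rfl⟩, ?_, x * x * (z * z), x * y * z, ?_, ?_, ?_⟩
        · rw [Ne, Ideal.mul_eq_bot, not_or]
          refine ⟨by rwa [Ideal.span_singleton_eq_bot], nonZeroDivisors.coe_ne_zero _⟩
        · rw [map_mul, map_mul, map_mul]
          have : 0 < Algebra.norm ℤ z * Algebra.norm ℤ z := by nlinarith
          exact mul_pos hxx this
        · rw [map_mul, map_mul]
          nlinarith
        · have e1 : span {x * x * (z * z)} * I = span {x * z * z} * (span {x} * I) := by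
            rw [← mul_assoc (span {x * z * z}), span_singleton_mul_span_singleton]
            rw [show x * x * (z * z) = x * z * z * x by ring]
          have e2 : span {x * y * z} * (span {z} * (f (ClassGroup.mk0 ⟨I, hI'⟩) : Ideal (𝓞 K)))
              = span {x * z * z} * (span {y} * (f (ClassGroup.mk0 ⟨I, hI'⟩) : Ideal (𝓞 K))) := by
            rw [← mul_assoc, ← mul_assoc, span_singleton_mul_span_singleton,
              span_singleton_mul_span_singleton, show x * y * z * z = x * z * z * y by ring]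
          rw [e1, e2, h]
      · refine ⟨_, Or.inl ⟨ClassGroup.mk0 ⟨I, hI'⟩, rfl⟩, nonZeroDivisors.coe_ne_zero _,
          x * x, x * y, ?_, ?_, ?_⟩
        · rw [map_mul]; exact hxx
        · rw [map_mul]; exact hs
        · rw [← span_singleton_mul_span_singleton, ← span_singleton_mul_span_singleton,
            mul_assoc, h, mul_assoc]
  · push Not at hz
    refine ⟨Set.range (fun c => (f c : Ideal (𝓞 K))), Set.finite_range _, ?_⟩
    intro I hI
    have hI' : I ∈ (Ideal (𝓞 K))⁰ := mem_nonZeroDivisors_iff_ne_zero.mpr hI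
    obtain ⟨x, y, hx, hy, h⟩ := ClassGroup.mk0_eq_mk0_iff.mp (hf (ClassGroup.mk0 ⟨I, hI'⟩)).symm
    refine ⟨_, ⟨ClassGroup.mk0 ⟨I, hI'⟩, rfl⟩, nonZeroDivisors.coe_ne_zero _, x, y, ?_, ?_, h⟩
    · exact lt_of_le_of_ne (hz x) (norm_ne_zero'.mpr hx).symm
    · exact lt_of_le_of_ne (hz y) (norm_ne_zero'.mpr hy).symm

/-- the setoid of norm-positive classes -/
def NS (K : Type) [Field K] [NumberField K] : Setoid {I : Ideal (𝓞 K) // I ≠ ⊥} where
  r I J := NE I.1 J.1
  iseqv := ⟨fun I => NE.refl I.1, fun h => h.symm, fun h h' => h.trans h'⟩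

theorem exists_reps (h2 : finrank ℚ K = 2) {M : ℕ} (hM : 0 < M) :
    ∃ B : Finset (Ideal (𝓞 K)), (∀ b ∈ B, b ≠ ⊥ ∧ IsCoprime b (idl K M)) ∧
      ∀ I : Ideal (𝓞 K), I ≠ ⊥ → ∃! b, b ∈ B ∧ NP I b := by
  classical
  obtain ⟨T, hT, hTI⟩ := exists_finite_NE K
  have hfin : Finite (Quotient (NS K)) := by
    have hT' : Finite T := hT
    have : Finite {J : T // J.1 ≠ ⊥} := inferInstance
    refine Finite.of_surjective
      (fun J : {J : T // J.1 ≠ ⊥} => (Quotient.mk (NS K) ⟨J.1.1, J.2⟩ : Quotient (NS K))) ?_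
    intro c
    induction c using Quotient.inductionOn with
    | h I =>
      obtain ⟨J, hJT, hJ0, hJ⟩ := hTI I.1 I.2
      exact ⟨⟨⟨J, hJT⟩, hJ0⟩, Quotient.sound (s := NS K) hJ.symm⟩
  have := Fintype.ofFinite (Quotient (NS K))
  have hb : ∀ c : Quotient (NS K), ∃ b : Ideal (𝓞 K), b ≠ ⊥ ∧ IsCoprime b (idl K M) ∧
      NP c.out.1 b := fun c => exists_NP_coprime h2 c.out.2 hM
  choose b hb0 hbc hbn using hb
  refine ⟨Finset.univ.image b, ?_, ?_⟩
  · intro x hx
    obtain ⟨c, -, rfl⟩ := Finset.mem_image.mp hx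
    exact ⟨hb0 c, hbc c⟩
  · intro I hI
    obtain ⟨c, hc⟩ : ∃ c : Quotient (NS K), c = Quotient.mk (NS K) ⟨I, hI⟩ := ⟨_, rfl⟩
    have hcI : NE I c.out.1 := by
      have h := Quotient.mk_out (s := NS K) (⟨I, hI⟩ : {I : Ideal (𝓞 K) // I ≠ ⊥})
      rw [← hc] at h
      exact NE.symm h
    refine ⟨b c, ⟨Finset.mem_image.mpr ⟨c, Finset.mem_univ _, rfl⟩, (hbn c).congr hcI⟩, ?_⟩
    rintro b' ⟨hb', hNP⟩
    obtain ⟨c', -, rfl⟩ := Finset.mem_image.mp hb'
    have h1 : NE I c'.out.1 := NE_of_NP hNP (hbn c')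
    have h3 : NE c.out.1 c'.out.1 := hcI.symm.trans h1
    have h4 : c = c' := by
      rw [← Quotient.out_eq c, ← Quotient.out_eq c']
      exact Quotient.sound (s := NS K) h3
    rw [h4]

end Vale.Agent.P022.H436
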