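import Vale.Agent.P022.Iface
import Vale.Agent.P022.H436.Quad

namespace Vale.Agent.P022.H436

open NumberField Module Ideal

variable {K : Type*} [Field K] [NumberField K]

theorem eq_of_le_of_absNorm_eq {I J : Ideal (𝓞 K)} (h : I ≤ J) (h0 : I ≠ ⊥)
    (hn : absNorm I = absNorm J) : I = J := by
  obtain ⟨L, hL⟩ := Ideal.dvd_iff_le.mpr h
  have h1 : absNorm J ≠ 0 := by
    rw [← hn]; intro h2; exact h0 (absNorm_eq_zero_iff.mp h2)
  have h2 : absNorm J * absNorm L = absNorm J * 1 := by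
    rw [← map_mul, ← hL, mul_one, hn]
  have h3 : absNorm L = 1 := Nat.eq_of_mul_eq_mul_left (Nat.pos_of_ne_zero h1) h2
  rw [absNorm_eq_one_iff] at h3
  rw [hL, h3, Ideal.mul_top]

theorem isPrime_of_absNorm_prime {P : Ideal (𝓞 K)} {l : ℕ} (hl : l.Prime) (h : absNorm P = l) :
    P.IsPrime :=
  isPrime_of_irreducible_absNorm (by rw [h]; exact hl)

theorem prime_of_absNorm_prime {P : Ideal (𝓞 K)} {l : ℕ} (hl : l.Prime) (h : absNorm P = l) :
    Prime P :=
  Ideal.prime_of_isPrime (fun h0 => hl.ne_zero (by rw [← h, h0, absNorm_bot]))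
    (isPrime_of_absNorm_prime hl h)

theorem natCast_mem_of_absNorm {P : Ideal (𝓞 K)} {l : ℕ} (h : absNorm P = l) : (l : 𝓞 K) ∈ P := by
  rw [← h]; exact absNorm_mem P

namespace QD

variable (q : QD K)

theorem intCast_dvd (m : ℤ) (z : 𝓞 K) : (m : 𝓞 K) ∣ z ↔ m ∣ q.cx z ∧ m ∣ q.cy z := by
  constructor
  · rintro ⟨y, hy⟩
    obtain ⟨h1, h2⟩ := q.c_unique (z := z) (x := m * q.cx y) (y := m * q.cy y) (by
      rw [hy]
      conv_lhs => rw [q.eq_c y]
      push_cast; ring)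
    exact ⟨⟨_, h1⟩, ⟨_, h2⟩⟩
  · rintro ⟨⟨a, ha⟩, ⟨b, hb⟩⟩
    refine ⟨(a : 𝓞 K) + b * q.w, ?_⟩
    conv_lhs => rw [q.eq_c z, ha, hb]
    push_cast; ring

theorem finrank_eq (q : QD K) : Module.finrank ℤ (𝓞 K) = 2 := by
  rw [Module.finrank_eq_card_basis q.e, Fintype.card_fin]

include q in
theorem absNorm_span_nat (l : ℕ) : absNorm (span {(l : 𝓞 K)}) = l ^ 2 := by
  rw [absNorm_span_natCast, q.finrank_eq]

/-- a linear form modulo an ideal of prime norm -/
theorem exists_root {P : Ideal (𝓞 K)} {l : ℕ} (hl : l.Prime) (h : absNorm P = l) :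
    ∃ r : ℤ, q.w - r ∈ P := by
  have hc : Nat.card (𝓞 K ⧸ P) = l := by rw [← h]; rfl
  have : Fact l.Prime := ⟨hl⟩
  have hP := isPrime_of_absNorm_prime hl h
  have h1 : (1 : 𝓞 K ⧸ P) ≠ 0 := by
    have := Ideal.Quotient.nontrivial_iff.mpr hP.ne_top
    exact one_ne_zero
  have h2 := zmultiples_eq_top_of_prime_card hc h1
  have h3 : Ideal.Quotient.mk P q.w ∈ AddSubgroup.zmultiples (1 : 𝓞 K ⧸ P) := by
    rw [h2]; trivial
  obtain ⟨r, hr⟩ := AddSubgroup.mem_zmultiples_iff.mp h3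
  refine ⟨r, ?_⟩
  rw [← Ideal.Quotient.eq, ← hr]
  simp

theorem norm_root (r : ℤ) : Algebra.norm ℤ (q.w - r) = r ^ 2 - q.t * r + q.n := by
  have : q.w - r = ((-r : ℤ) : 𝓞 K) + ((1 : ℤ) : 𝓞 K) * q.w := by push_cast; ring
  rw [this, q.norm_mk]; ring

theorem dvd_root {P : Ideal (𝓞 K)} {l : ℕ} (h : absNorm P = l) {r : ℤ}
    (hr : q.w - r ∈ P) : (l : ℤ) ∣ r ^ 2 - q.t * r + q.n := by
  rw [← q.norm_root, ← h]
  exact absNorm_dvd_norm_of_mem hr

theorem not_dvd_root {l : ℕ} (hl : l.Prime) (r : ℤ) : ¬ (l : 𝓞 K) ∣ q.w - r := by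
  intro h
  have h1 : ((l : ℤ) : 𝓞 K) ∣ q.w - r := by simpa using h
  rw [q.intCast_dvd] at h1
  obtain ⟨-, h2⟩ := q.c_unique (z := q.w - r) (x := -r) (y := 1) (by push_cast; ring)
  rw [h2] at h1
  have h3 := Int.natCast_dvd_natCast.mp (by simpa using h1.2 : (l : ℤ) ∣ ((1 : ℕ) : ℤ))
  exact hl.one_lt.ne' (Nat.dvd_one.mp h3)

/-- the ideal `(l, w - r)` -/
def rt (l : ℕ) (r : ℤ) : Ideal (𝓞 K) := span {(l : 𝓞 K), q.w - r}

theorem nat_mem_rt (l : ℕ) (r : ℤ) : (l : 𝓞 K) ∈ q.rt l r :=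
  Ideal.subset_span (by simp)

theorem root_mem_rt (l : ℕ) (r : ℤ) : q.w - r ∈ q.rt l r :=
  Ideal.subset_span (by simp)

theorem rt_ne_top {l : ℕ} (hl : l.Prime) {r : ℤ} (h : (l : ℤ) ∣ r ^ 2 - q.t * r + q.n) :
    q.rt l r ≠ ⊤ := by
  intro ht
  have h1 : (1 : 𝓞 K) ∈ q.rt l r := by rw [ht]; trivial
  obtain ⟨a, b, hab⟩ := Ideal.mem_span_pair.mp h1
  have h2 : q.s (q.w - r) = (l : 𝓞 K) * (a * q.s (q.w - r)) + b * ((q.w - r) * q.s (q.w - r)) := by
    linear_combination (-(q.s (q.w - r))) * hab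
  rw [q.mul_s, q.norm_root] at h2
  have h3 : (l : 𝓞 K) ∣ q.s (q.w - r) := by
    rw [h2]
    refine dvd_add (dvd_mul_right _ _) (Dvd.dvd.mul_left ?_ _)
    have := map_dvd (Int.castRingHom (𝓞 K)) h
    simpa using this
  have h4 : (l : 𝓞 K) ∣ q.w - r := by
    obtain ⟨c, hc⟩ := h3
    refine ⟨q.s c, ?_⟩
    have := congrArg q.s hc
    rw [q.s_s, map_mul, map_natCast] at this
    exact this
  exact q.not_dvd_root hl r h4

theorem absNorm_rt {l : ℕ} (hl : l.Prime) {r : ℤ} (h : (l : ℤ) ∣ r ^ 2 - q.t * r + q.n) :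
    absNorm (q.rt l r) = l := by
  have hle : span {(l : 𝓞 K)} ≤ q.rt l r := by
    rw [Ideal.span_singleton_le_iff_mem]; exact q.nat_mem_rt l r
  have h1 : absNorm (q.rt l r) ∣ l ^ 2 := by
    rw [← q.absNorm_span_nat l]
    exact absNorm_dvd_absNorm_of_le hle
  obtain ⟨k, hk, hk2⟩ := (Nat.dvd_prime_pow hl).mp h1
  have hl0 : span {(l : 𝓞 K)} ≠ ⊥ := by
    rw [Ne, Ideal.span_singleton_eq_bot]
    exact_mod_cast hl.ne_zero
  interval_cases k
  · exact absurd (absNorm_eq_one_iff.mp (by simpa using hk2)) (q.rt_ne_top hl h)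
  · simpa using hk2
  · exfalso
    have h2 := eq_of_le_of_absNorm_eq hle hl0 (by rw [q.absNorm_span_nat, hk2])
    have h3 := q.root_mem_rt l r
    rw [← h2, Ideal.mem_span_singleton] at h3
    exact q.not_dvd_root hl r h3

theorem eq_rt {P : Ideal (𝓞 K)} {l : ℕ} (hl : l.Prime) (h : absNorm P = l) {r : ℤ}
    (hr : q.w - r ∈ P) : P = q.rt l r := by
  have h1 := q.dvd_root h hr
  have h2 := q.absNorm_rt hl h1
  refine (eq_of_le_of_absNorm_eq ?_ ?_ (by rw [h, h2])).symm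
  · unfold rt
    rw [Ideal.span_le]
    rintro x (rfl | hx)
    · exact natCast_mem_of_absNorm h
    · rw [Set.mem_singleton_iff] at hx; subst hx; exact hr
  · intro h0
    rw [h0, absNorm_bot] at h2
    exact hl.ne_zero h2.symm

theorem rt_congr {l : ℕ} {r r' : ℤ} (h : (l : ℤ) ∣ r - r') : q.rt l r = q.rt l r' := by
  have key : ∀ a b : ℤ, (l : ℤ) ∣ a - b → q.rt l a ≤ q.rt l b := by
    intro a b hab
    unfold rt
    rw [Ideal.span_le]
    rintro x (rfl | hx)
    · exact q.nat_mem_rt l b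
    · rw [Set.mem_singleton_iff] at hx; subst hx
      obtain ⟨c, hc⟩ := hab
      have : q.w - a = (q.w - b) - (l : 𝓞 K) * c := by
        have h1 : ((a - b : ℤ) : 𝓞 K) = ((l * c : ℤ) : 𝓞 K) := by rw [hc]
        push_cast at h1
        linear_combination -h1
      rw [this]
      exact Ideal.sub_mem _ (q.root_mem_rt l b) (Ideal.mul_mem_right _ _ (q.nat_mem_rt l b))
  refine le_antisymm (key _ _ h) (key _ _ ?_)
  rw [← neg_sub]
  exact (dvd_neg.mpr h)

theorem four_mul_root (r : ℤ) :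
    4 * (r ^ 2 - q.t * r + q.n) = (2 * r - q.t) ^ 2 - discr K := by
  rw [q.discr_eq]; ring

include q in
theorem exists_cofactor {P : Ideal (𝓞 K)} {l : ℕ} (hl : l.Prime) (h : absNorm P = l) :
    ∃ J : Ideal (𝓞 K), span {(l : 𝓞 K)} = P * J ∧ absNorm J = l := by
  obtain ⟨J, hJ⟩ := Ideal.dvd_iff_le.mpr ((Ideal.span_singleton_le_iff_mem P).mpr
    (natCast_mem_of_absNorm h))
  refine ⟨J, hJ, ?_⟩
  have h1 := congrArg absNorm hJ
  rw [q.absNorm_span_nat, map_mul, h, sq] at h1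
  exact (Nat.eq_of_mul_eq_mul_left hl.pos h1).symm

include q in
theorem split_cases {l : ℕ} (hl : l.Prime) (h2 : l ≠ 2) :
    (jacobiSym (discr K) l = 1 ∧ ∃ P P' : Ideal (𝓞 K), P ≠ P' ∧ absNorm P = l ∧
      absNorm P' = l ∧ span {(l : 𝓞 K)} = P * P') ∨
    (jacobiSym (discr K) l = 0 ∧ ∃ P : Ideal (𝓞 K), absNorm P = l ∧
      span {(l : 𝓞 K)} = P * P) ∨
    (jacobiSym (discr K) l = -1 ∧ ∀ P : Ideal (𝓞 K), absNorm P ≠ l) := by
  have : Fact l.Prime := ⟨hl⟩
  have hodd : IsCoprime (2 : ℤ) l := by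
    rw [Int.isCoprime_iff_gcd_eq_one]
    exact (Nat.coprime_primes Nat.prime_two hl).mpr (Ne.symm h2)
  have hodd4 : IsCoprime (l : ℤ) 4 := by
    have : (4 : ℤ) = 2 * 2 := by norm_num
    rw [this]
    exact (hodd.symm.mul_right hodd.symm)
  have hroot : ∀ r : ℤ, (l : ℤ) ∣ (2 * r - q.t) ^ 2 - discr K →
      (l : ℤ) ∣ r ^ 2 - q.t * r + q.n := by
    intro r hr
    rw [← q.four_mul_root] at hr
    exact hodd4.dvd_of_dvd_mul_left hr
  obtain ⟨h, k, hk⟩ := hodd
  rw [← jacobiSym.legendreSym.to_jacobiSym]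
  have htri : legendreSym l (discr K) = 0 ∨ legendreSym l (discr K) = 1 ∨
      legendreSym l (discr K) = -1 := by
    by_cases h0 : ((discr K : ℤ) : ZMod l) = 0
    · left; exact (legendreSym.eq_zero_iff l _).mpr h0
    · right; exact legendreSym.eq_one_or_neg_one l h0
  rcases htri with h0 | h1 | hm
  · right; left
    refine ⟨h0, ?_⟩
    have hd : (l : ℤ) ∣ discr K := by
      rw [← ZMod.intCast_zmod_eq_zero_iff_dvd, ← legendreSym.eq_zero_iff l]; exact h0
    have hr : (l : ℤ) ∣ (2 * (h * q.t) - q.t) ^ 2 - discr K := by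
      refine dvd_sub ?_ hd
      refine Dvd.dvd.pow ⟨-(k * q.t), ?_⟩ two_ne_zero
      linear_combination q.t * hk
    have hP := q.absNorm_rt hl (hroot _ hr)
    obtain ⟨J, hJ, hJl⟩ := q.exists_cofactor hl hP
    refine ⟨q.rt l (h * q.t), hP, ?_⟩
    obtain ⟨r', hr'⟩ := q.exists_root hl hJl
    have hJrt := q.eq_rt hl hJl hr'
    have h3 := q.dvd_root hJl hr'
    have h4 : (l : ℤ) ∣ (2 * r' - q.t) ^ 2 := by
      have : (2 * r' - q.t) ^ 2 = 4 * (r' ^ 2 - q.t * r' + q.n) + discr K := by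
        rw [q.four_mul_root]; ring
      rw [this]
      exact dvd_add (Dvd.dvd.mul_left h3 _) hd
    have h5 : (l : ℤ) ∣ 2 * r' - q.t := Int.Prime.dvd_pow' hl h4
    have h6 : (l : ℤ) ∣ r' - h * q.t := by
      have : r' - h * q.t = h * (2 * r' - q.t) + l * (k * r') := by
        linear_combination (-r') * hk
      rw [this]
      exact dvd_add (Dvd.dvd.mul_left h5 _) (dvd_mul_right _ _)
    rw [hJ, hJrt, q.rt_congr h6]
  · left
    refine ⟨h1, ?_⟩
    have hne : ((discr K : ℤ) : ZMod l) ≠ 0 := by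
      intro hz
      rw [(legendreSym.eq_zero_iff l _).mpr hz] at h1
      exact zero_ne_one h1
    obtain ⟨s', hs'⟩ := (legendreSym.eq_one_iff l hne).mp h1
    obtain ⟨s, rfl⟩ := ZMod.intCast_surjective s'
    have hs : (l : ℤ) ∣ s ^ 2 - discr K := by
      rw [← ZMod.intCast_zmod_eq_zero_iff_dvd]
      push_cast
      rw [hs']; ring
    have hsl : ¬ (l : ℤ) ∣ s := by
      intro hd
      apply hne
      rw [hs']
      have := (ZMod.intCast_zmod_eq_zero_iff_dvd s l).mpr hd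
      rw [this]; ring
    have hr1 : (l : ℤ) ∣ (2 * (h * (q.t + s)) - q.t) ^ 2 - discr K := by
      have : (2 * (h * (q.t + s)) - q.t) ^ 2 - discr K
          = (s ^ 2 - discr K) + l * (k * (q.t + s) * (k * l * (q.t + s) - 2 * s)) := by
        have e1 : 2 * h = 1 - k * l := by linarith
        have : (2 * (h * (q.t + s)) - q.t) = s - k * l * (q.t + s) := by
          linear_combination (q.t + s) * e1
        rw [this]; ring
      rw [this]
      exact dvd_add hs (dvd_mul_right _ _)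
    have hr2 : (l : ℤ) ∣ (2 * (h * (q.t - s)) - q.t) ^ 2 - discr K := by
      have : (2 * (h * (q.t - s)) - q.t) ^ 2 - discr K
          = (s ^ 2 - discr K) + l * (k * (q.t - s) * (k * l * (q.t - s) + 2 * s)) := by
        have e1 : 2 * h = 1 - k * l := by linarith
        have : (2 * (h * (q.t - s)) - q.t) = -s - k * l * (q.t - s) := by
          linear_combination (q.t - s) * e1
        rw [this]; ring
      rw [this]
      exact dvd_add hs (dvd_mul_right _ _)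
    have hP1 := q.absNorm_rt hl (hroot _ hr1)
    have hP2 := q.absNorm_rt hl (hroot _ hr2)
    have hne12 : q.rt l (h * (q.t + s)) ≠ q.rt l (h * (q.t - s)) := by
      intro he
      have m1 := q.root_mem_rt l (h * (q.t + s))
      have m2 := q.root_mem_rt l (h * (q.t - s))
      rw [← he] at m2
      have m3 : ((s : ℤ) : 𝓞 K) ∈ q.rt l (h * (q.t + s)) := by
        have e : ((s : ℤ) : 𝓞 K) = ((q.w - ((h * (q.t - s) : ℤ) : 𝓞 K)) -
            (q.w - ((h * (q.t + s) : ℤ) : 𝓞 K))) + (l : 𝓞 K) * ((k * s : ℤ) : 𝓞 K) := by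
          have e1 : ((h * 2 + k * l : ℤ) : 𝓞 K) = ((1 : ℤ) : 𝓞 K) := by rw [hk]
          push_cast at e1
          push_cast
          linear_combination (-(s : 𝓞 K)) * e1
        rw [e]
        exact Ideal.add_mem _ (Ideal.sub_mem _ m2 m1)
          (Ideal.mul_mem_right _ _ (q.nat_mem_rt l _))
      apply q.rt_ne_top hl (hroot _ hr1)
      rw [Ideal.eq_top_iff_one]
      have hcop : IsCoprime s (l : ℤ) :=
        ((Nat.prime_iff_prime_int.mp hl).coprime_iff_not_dvd.mpr hsl).symm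
      obtain ⟨a, b, hab⟩ := hcop
      have e : (1 : 𝓞 K) = ((a : ℤ) : 𝓞 K) * s + ((b : ℤ) : 𝓞 K) * l := by
        have := congrArg (fun z : ℤ => (z : 𝓞 K)) hab
        push_cast at this
        rw [this]
      rw [e]
      exact Ideal.add_mem _ (Ideal.mul_mem_left _ _ m3)
        (Ideal.mul_mem_left _ _ (q.nat_mem_rt l _))
    obtain ⟨J, hJ, hJl⟩ := q.exists_cofactor hl hP1
    refine ⟨_, _, hne12, hP1, hP2, ?_⟩
    have hdvd : q.rt l (h * (q.t - s)) ∣ q.rt l (h * (q.t + s)) * J := by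
      rw [← hJ, Ideal.dvd_span_singleton]
      exact q.nat_mem_rt l _
    rcases (prime_of_absNorm_prime hl hP2).dvd_or_dvd hdvd with hd | hd
    · exfalso
      apply hne12
      refine eq_of_le_of_absNorm_eq (Ideal.le_of_dvd hd) ?_ (by rw [hP1, hP2])
      intro h0; rw [h0, absNorm_bot] at hP1; exact hl.ne_zero hP1.symm
    · have : J = q.rt l (h * (q.t - s)) := by
        refine eq_of_le_of_absNorm_eq (Ideal.le_of_dvd hd) ?_ (by rw [hJl, hP2])
        intro h0; rw [h0, absNorm_bot] at hJl; exact hl.ne_zero hJl.symm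
      rw [hJ, this]
  · right; right
    refine ⟨hm, ?_⟩
    intro P hP
    obtain ⟨r, hr⟩ := q.exists_root hl hP
    have h3 := q.dvd_root hP hr
    have h4 : (l : ℤ) ∣ (2 * r - q.t) ^ 2 - discr K := by
      rw [← q.four_mul_root]; exact Dvd.dvd.mul_left h3 _
    have h5 : IsSquare ((discr K : ℤ) : ZMod l) := by
      refine ⟨((2 * r - q.t : ℤ) : ZMod l), ?_⟩
      have := (ZMod.intCast_zmod_eq_zero_iff_dvd _ l).mpr h4
      rw [Int.cast_sub, sub_eq_zero] at this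
      rw [← this, Int.cast_pow, sq]
    exact (legendreSym.eq_neg_one_iff l).mp hm h5

end QD

end Vale.Agent.P022.H436
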